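import Mathlib

/-!
Global existence of solutions for a bounded, globally Lipschitz time-dependent vector field.
-/

set_option autoImplicit false

namespace Crest.Agent.H27

open Set

variable {E : Type*} [NormedAddCommGroup E] [NormedSpace ℝ E] [CompleteSpace E]

theorem exists_solution_Icc {v : ℝ → E → E} {K : NNReal} (hL : ∀ t, LipschitzWith K (v t))
    (hc : ∀ x, Continuous fun t => v t x) {C : NNReal} (hb : ∀ t x, ‖v t x‖ ≤ C)
    (x : E) (T : ℝ) (hT : 0 < T) :
    ∃ α : ℝ → E, α 0 = x ∧ ∀ t ∈ Icc (-T) T, HasDerivWithinAt α (v t (α t)) (Icc (-T) T) t := by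
  have h0 : (0 : ℝ) ∈ Icc (-T) T := ⟨by linarith, hT.le⟩
  have hpl : IsPicardLindelof v (tmin := -T) (tmax := T) ⟨0, h0⟩ x (C * ⟨T, hT.le⟩) 0 C K := by
    constructor
    · intro t _
      exact (hL t).lipschitzOnWith
    · intro y _
      exact (hc y).continuousOn
    · intro t _ y _
      exact hb t y
    · simp only [sub_zero, zero_sub, neg_neg, max_self, NNReal.coe_mul, NNReal.coe_mk, NNReal.coe_zero]
      exact le_refl _
  exact hpl.exists_eq_forall_mem_Icc_hasDerivWithinAt (by simp)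

theorem exists_global_solution {v : ℝ → E → E} {K : NNReal} (hL : ∀ t, LipschitzWith K (v t))
    (hc : ∀ x, Continuous fun t => v t x) {C : NNReal} (hb : ∀ t x, ‖v t x‖ ≤ C) (x : E) :
    ∃ α : ℝ → E, α 0 = x ∧ ∀ t, HasDerivAt α (v t (α t)) t := by
  choose α hα0 hα using fun N : ℕ =>
    exists_solution_Icc hL hc hb x ((N : ℝ) + 1) (by positivity)
  have hα' : ∀ (N : ℕ) (t : ℝ), t ∈ Ioo (-((N : ℝ) + 1)) ((N : ℝ) + 1) →
      HasDerivAt (α N) (v t (α N t)) t := by
    intro N t ht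
    exact (hα N t (Ioo_subset_Icc_self ht)).hasDerivAt (Icc_mem_nhds ht.1 ht.2)
  have huniq : ∀ N M : ℕ, N ≤ M → ∀ t ∈ Icc (-((N : ℝ) + 1)) ((N : ℝ) + 1), α N t = α M t := by
    intro N M hNM
    have hNM' : (N : ℝ) ≤ M := by exact_mod_cast hNM
    have h := ODE_solution_unique_of_mem_Icc (v := v) (s := fun _ => univ) (K := K)
      (f := α N) (g := α M) (a := -((N : ℝ) + 1)) (b := (N : ℝ) + 1) (t₀ := 0)
      (fun t _ => (hL t).lipschitzOnWith)
      ⟨by have : (0 : ℝ) ≤ N := Nat.cast_nonneg N; linarith,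
        by positivity⟩
      (fun t ht => (hα N t ht).continuousWithinAt)
      (fun t ht => hα' N t ht)
      (fun _ _ => mem_univ _)
      (fun t ht => (hα M t ⟨by linarith [ht.1], by linarith [ht.2]⟩).continuousWithinAt.mono
        (Icc_subset_Icc (by linarith) (by linarith)))
      (fun t ht => hα' M t ⟨by linarith [ht.1], by linarith [ht.2]⟩)
      (fun _ _ => mem_univ _)
      (by rw [hα0, hα0])
    exact h
  refine ⟨fun t => α ⌈|t|⌉₊ t, ?_, ?_⟩
  · simp [hα0]
  · intro t₀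
    set N₀ := ⌈|t₀|⌉₊ + 1 with hN₀
    have hle : |t₀| ≤ (⌈|t₀|⌉₊ : ℝ) := Nat.le_ceil _
    have hloc : ∀ t, |t - t₀| < 1 → α ⌈|t|⌉₊ t = α N₀ t := by
      intro t ht
      have h1 : |t| < (⌈|t₀|⌉₊ : ℝ) + 1 := by
        calc |t| = |(t - t₀) + t₀| := by ring_nf
          _ ≤ |t - t₀| + |t₀| := abs_add_le _ _
          _ < _ := by linarith
      have h2 : ⌈|t|⌉₊ ≤ N₀ := by
        apply Nat.ceil_le.2
        rw [hN₀]; push_cast; exact h1.le
      apply huniq _ _ h2
      have h3 : |t| ≤ (⌈|t|⌉₊ : ℝ) := Nat.le_ceil _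
      have h4 := abs_le.1 h3
      exact ⟨by linarith [h4.1], by linarith [h4.2]⟩
    have hmem : t₀ ∈ Ioo (-((N₀ : ℝ) + 1)) ((N₀ : ℝ) + 1) := by
      have h4 := abs_le.1 hle
      rw [hN₀]; push_cast
      exact ⟨by linarith [h4.1], by linarith [h4.2]⟩
    have h5 := hα' N₀ t₀ hmem
    have h6 : (fun t => α ⌈|t|⌉₊ t) =ᶠ[nhds t₀] α N₀ := by
      have : ∀ᶠ t in nhds t₀, |t - t₀| < 1 := by
        have := Metric.ball_mem_nhds t₀ (zero_lt_one' ℝ)
        filter_upwards [this] with t ht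
        simpa [Real.dist_eq] using ht
      filter_upwards [this] with t ht
      exact hloc t ht
    have h7 : α ⌈|t₀|⌉₊ t₀ = α N₀ t₀ := hloc t₀ (by simp)
    simp only
    rw [h7]
    exact h5.congr_of_eventuallyEq h6

end Crest.Agent.H27
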