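import Crest.Agent.H27.Route
import Crest.Agent.H27.Flow

/-!
Final assembly for S0170.
-/

set_option autoImplicit false

namespace Crest.Agent.H27

open Crest.AnalysisR.BoxFlow Filter

theorem exists_sep_of_disjoint {n : ℕ} {a h : Fin n → Fin 3 → ℚ} (hh : ∀ m l, 0 < h m l)
    (ha : Pairwise fun i i' => Disjoint (box (a i) (h i)) (box (a i') (h i'))) :
    ∀ᶠ δ : ℚ in nhdsWithin 0 (Set.Ioi 0), Sep a h δ := by
  unfold Sep
  rw [eventually_all]
  intro m
  rw [eventually_all]
  intro m'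
  by_cases hm : m = m'
  · exact Eventually.of_forall fun η h => absurd hm h
  have h1 : ∃ l, h m l + h m' l < |a m l - a m' l| := by
    by_contra hcon
    push Not at hcon
    have hd := ha hm
    refine (Set.disjoint_left.1 hd
      (?_ : (fun l => ((max (a m l - h m l) (a m' l - h m' l) : ℚ) : ℝ)) ∈ box (a m) (h m))) ?_
    · intro l
      have h1 := abs_le.1 (hcon l)
      have h2 := hh m l
      have h3 := hh m' l
      have : |max (a m l - h m l) (a m' l - h m' l) - a m l| ≤ h m l := by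
        rw [abs_le]
        constructor
        · have := le_max_left (a m l - h m l) (a m' l - h m' l); linarith
        · have : max (a m l - h m l) (a m' l - h m' l) ≤ a m l + h m l :=
            max_le (by linarith) (by linarith)
          linarith
      beta_reduce
      exact_mod_cast this
    · intro l
      have h1 := abs_le.1 (hcon l)
      have h2 := hh m l
      have h3 := hh m' l
      have : |max (a m l - h m l) (a m' l - h m' l) - a m' l| ≤ h m' l := by
        rw [abs_le]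
        constructor
        · have := le_max_right (a m l - h m l) (a m' l - h m' l); linarith
        · have : max (a m l - h m l) (a m' l - h m' l) ≤ a m' l + h m' l :=
            max_le (by linarith) (by linarith)
          linarith
      beta_reduce
      exact_mod_cast this
  obtain ⟨l, hl⟩ := h1
  have h2 : 0 < |a m l - a m' l| - (h m l + h m' l) := by linarith
  filter_upwards [nhdsWithin_le_nhds (Iio_mem_nhds h2)] with δ hδ
  intro _
  refine ⟨l, ?_⟩
  have : δ < |a m l - a m' l| - (h m l + h m' l) := hδ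
  linarith

theorem exists_flow {U : Field} (hU : Good U) : ∃ Φ : ℝ → (Fin 3 → ℝ) → (Fin 3 → ℝ), IsFlow U Φ ∧
    ∀ x (γ : ℝ → (Fin 3 → ℝ)), (∀ t, HasDerivAt γ (U (t, γ t)) t) → γ 0 = x → ∀ t, Φ t x = γ t := by
  obtain ⟨K, hK⟩ := ContDiff.lipschitzWith_of_hasCompactSupport hU.cpt hU.nice.smooth
    (by simp)
  have hL : ∀ t : ℝ, LipschitzWith K (fun x : Fin 3 → ℝ => U (t, x)) := by
    intro t
    have h1 : LipschitzWith 1 (fun x : Fin 3 → ℝ => (t, x)) := by
      apply LipschitzWith.of_dist_le_mul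
      intro x y
      rw [Prod.dist_eq]
      simp
    have h2 := hK.comp h1
    rw [mul_one] at h2
    exact h2
  have hc : ∀ x : Fin 3 → ℝ, Continuous fun t : ℝ => U (t, x) := fun x =>
    hU.nice.smooth.continuous.comp (Continuous.prodMk_left x)
  obtain ⟨C, hC⟩ := hU.cpt.exists_bound_of_continuous hU.nice.smooth.continuous
  have hC0 : 0 ≤ C := (norm_nonneg _).trans (hC (0, 0))
  choose Φ hΦ0 hΦ using fun x => exists_global_solution (v := fun t x => U (t, x)) hL hc
    (C := ⟨C, hC0⟩) (fun t x => hC (t, x)) x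
  refine ⟨fun t x => Φ x t, ⟨fun x => hΦ0 x, fun t x => hΦ x t⟩, ?_⟩
  intro x γ hγ hγ0 t
  have := ODE_solution_unique_univ (v := fun t x => U (t, x)) (s := fun _ => Set.univ) (K := K)
    (f := Φ x) (g := γ) (t₀ := 0) (fun t => (hL t).lipschitzOnWith)
    (fun t => ⟨hΦ x t, Set.mem_univ _⟩) (fun t => ⟨hγ t, Set.mem_univ _⟩) (by rw [hΦ0, hγ0])
  exact congrFun this t

theorem box_flow_main
    (n : ℕ) (a b h k : Fin n → Fin 3 → ℚ)
    (hh : ∀ i j, 0 < h i j) (hk : ∀ i j, 0 < k i j)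
    (ha : Pairwise fun i i' => Disjoint (box (a i) (h i)) (box (a i') (h i')))
    (hb : Pairwise fun i i' => Disjoint (box (b i) (k i)) (box (b i') (k i')))
    (hvol : ∀ i, ∏ j : Fin 3, k i j / h i j = 1) :
    ∃ (U : Field) (Φ : ℝ → (Fin 3 → ℝ) → (Fin 3 → ℝ)),
      ContDiff ℝ (⊤ : ℕ∞) U ∧ HasCompactSupport U ∧ Effective U ∧
      (∀ p : ℝ × (Fin 3 → ℝ), p.1 ∉ Set.Icc (1 / 4 : ℝ) (3 / 4) → U p = 0) ∧
      (∀ p : ℝ × (Fin 3 → ℝ), spaceDiv U p = 0) ∧ IsFlow U Φ ∧
      ∀ i : Fin n, ∃ O : Set (Fin 3 → ℝ), IsOpen O ∧ box (a i) (h i) ⊆ O ∧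
        ∀ x ∈ O, Φ 1 x = fun j => (b i j : ℝ) + ((k i j / h i j : ℚ) : ℝ) * (x j - (a i j : ℝ)) := by
  obtain ⟨δ, ⟨hsa, hsb⟩, hδ⟩ := (((exists_sep_of_disjoint hh ha).and
    (exists_sep_of_disjoint hk hb)).and self_mem_nhdsWithin).exists
  have hvol' : ∀ m, k m 0 * k m 1 * k m 2 = h m 0 * h m 1 * h m 2 := by
    intro m
    have h1 := hvol m
    rw [Fin.prod_univ_three] at h1
    have h0 := (hh m 0).ne'
    have h2 := (hh m 1).ne'
    have h3 := (hh m 2).ne'
    field_simp at h1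
    linarith
  obtain ⟨U, hU, hm⟩ := main_reach (δ := δ) hδ hh hk hvol' hsa hsb
  obtain ⟨Φ, hΦ, hΦu⟩ := exists_flow hU
  refine ⟨U, Φ, hU.nice.smooth, hU.cpt, hU.nice.effective, hU.time, hU.div, hΦ, fun i => ?_⟩
  obtain ⟨O, hO, hbO, hmO⟩ := hm i
  refine ⟨O, hO, hbO, fun x hx => ?_⟩
  obtain ⟨γ, hγ, h0, h1⟩ := hmO x hx
  rw [hΦu x γ hγ h0 1, h1]
  rfl

end Crest.Agent.H27
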