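import Crest.Agent.H27.FabiusComp

/-!
Primitive recursive approximations of `log r` for a fixed positive rational `r`.
-/

set_option autoImplicit false

namespace Crest.Agent.H27

open Finset

theorem abs_log_one_add_sub {y : ℝ} (hy : 0 ≤ y) : |Real.log (1 + y) - y| ≤ y ^ 2 := by
  have h1 : Real.log (1 + y) ≤ y := by
    have := Real.log_le_sub_one_of_pos (show 0 < 1 + y by linarith)
    linarith
  have h2 : y / (1 + y) ≤ Real.log (1 + y) := by
    have := Real.one_sub_inv_le_log_of_pos (show 0 < 1 + y by linarith)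
    have e : 1 - (1 + y)⁻¹ = y / (1 + y) := by field_simp; ring
    linarith
  have h3 : y - y / (1 + y) ≤ y ^ 2 := by
    have e : y - y / (1 + y) = y ^ 2 / (1 + y) := by field_simp; ring
    rw [e]
    exact div_le_self (by positivity) (by linarith)
  rw [abs_le]
  constructor
  · linarith
  · have : 0 ≤ y ^ 2 := by positivity
    linarith

/-- Riemann sum for the logarithm. -/
noncomputable def logSum (d : ℝ) (m : ℕ) : ℝ := ∑ k ∈ range m, d / (1 + k * d)

theorem logSum_bound {d : ℝ} (hd : 0 ≤ d) (m : ℕ) :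
    |Real.log (1 + m * d) - logSum d m| ≤ m * d ^ 2 := by
  induction m with
  | zero => simp [logSum]
  | succ m ih =>
    have hpos : 0 < 1 + m * d := by positivity
    have e1 : 1 + ((m + 1 : ℕ) : ℝ) * d = (1 + m * d) * (1 + d / (1 + m * d)) := by
      push_cast; field_simp; ring
    have hy : 0 ≤ d / (1 + m * d) := by positivity
    rw [e1, Real.log_mul hpos.ne' (by positivity)]
    rw [logSum, Finset.sum_range_succ, ← logSum]
    have h2 := abs_log_one_add_sub hy
    have h3 : (d / (1 + m * d)) ^ 2 ≤ d ^ 2 := by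
      apply pow_le_pow_left₀ hy
      apply div_le_self hd
      have : 0 ≤ m * d := by positivity
      linarith
    calc |Real.log (1 + m * d) + Real.log (1 + d / (1 + m * d)) - (logSum d m + d / (1 + m * d))|
        = |(Real.log (1 + m * d) - logSum d m) +
          (Real.log (1 + d / (1 + m * d)) - d / (1 + m * d))| := by congr 1; ring
      _ ≤ _ := abs_add_le _ _
      _ ≤ m * d ^ 2 + d ^ 2 := add_le_add ih (h2.trans h3)
      _ = _ := by push_cast; ring

theorem preal_log_of_one_le {r : ℚ} (hr : 1 ≤ r) : PReal (fun _ : Unit => Real.log r) := by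
  obtain ⟨K, hK⟩ := exists_nat_ge ((r - 1) ^ 2)
  -- number of steps `N = (K+1)(n+1)`
  refine ⟨fun _ n => ((List.range ((K + 1) * (n + 1))).map (fun k : ℕ =>
    ((r - 1) / ((((K + 1) * (n + 1) : ℕ)) : ℚ)) /
      (1 + (k : ℚ) * ((r - 1) / ((((K + 1) * (n + 1) : ℕ)) : ℚ))))).sum, ?_, fun _ n => ?_⟩
  · have hN : Primrec₂ (fun (_ : Unit) (n : ℕ) => (K + 1) * (n + 1)) :=
      Primrec.nat_mul.comp (Primrec.const _) (Primrec.succ.comp Primrec.snd)
    have hd : Primrec (fun p : (Unit × ℕ) × ℕ => (r - 1) / ((((K + 1) * (p.1.2 + 1) : ℕ)) : ℚ)) :=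
      primrec_rat_div.comp (Primrec.const _) (primrec_rat_natCast.comp
        (Primrec.nat_mul.comp (Primrec.const _)
          (Primrec.succ.comp (Primrec.snd.comp Primrec.fst))))
    refine primrec_list_sum_rat.comp (Primrec.list_map (Primrec.list_range.comp hN) ?_)
    exact primrec_rat_div.comp hd (primrec_rat_add.comp (Primrec.const 1)
      (primrec_rat_mul.comp (primrec_rat_natCast.comp Primrec.snd) hd))
  · set N := (K + 1) * (n + 1) with hN
    have hNpos : (0 : ℝ) < N := by rw [hN]; positivity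
    set d : ℝ := ((r : ℝ) - 1) / N with hd
    have hr' : (1 : ℝ) ≤ r := by exact_mod_cast hr
    have hd0 : 0 ≤ d := div_nonneg (by linarith) hNpos.le
    have e1 : ((((List.range N).map (fun k : ℕ => ((r - 1) / ((N : ℕ) : ℚ)) /
      (1 + (k : ℚ) * ((r - 1) / ((N : ℕ) : ℚ))))).sum : ℚ) : ℝ) = logSum d N := by
      rw [logSum, hd]
      have e : ∀ M : ℕ, ((((List.range M).map (fun k : ℕ => ((r - 1) / ((N : ℕ) : ℚ)) /
          (1 + (k : ℚ) * ((r - 1) / ((N : ℕ) : ℚ))))).sum : ℚ) : ℝ) =
          ∑ k ∈ range M, (((r : ℝ) - 1) / N) / (1 + k * (((r : ℝ) - 1) / N)) := by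
        intro M
        induction M with
        | zero => simp
        | succ M ih =>
          rw [List.range_succ, List.map_append, List.sum_append, Finset.sum_range_succ,
            Rat.cast_add, ih]
          simp
      exact e N
    rw [e1]
    have h1 := logSum_bound hd0 N
    have e2 : 1 + (N : ℝ) * d = r := by rw [hd]; field_simp; ring
    rw [e2] at h1
    refine h1.trans ?_
    have e3 : (N : ℝ) * d ^ 2 = ((r : ℝ) - 1) ^ 2 / N := by rw [hd]; field_simp
    rw [e3, div_le_div_iff₀ hNpos (by positivity)]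
    have hK' : ((r : ℝ) - 1) ^ 2 ≤ K := by exact_mod_cast hK
    rw [hN]
    push_cast
    nlinarith [(Nat.cast_nonneg n : (0 : ℝ) ≤ n)]

theorem preal_log {r : ℚ} (hr : 0 < r) : PReal (fun _ : Unit => Real.log r) := by
  rcases le_total 1 r with h | h
  · exact preal_log_of_one_le h
  · have h1 : 1 ≤ r⁻¹ := (one_le_inv₀ hr).2 h
    refine (preal_log_of_one_le h1).neg.of_eq fun _ => ?_
    push_cast
    rw [Real.log_inv, neg_neg]

end Crest.Agent.H27
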