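import Crest.Agent.H27.Reach
import Crest.Agent.H27.LogComp

/-!
Elementary moves: shifts along an axis and squeezes in a pair of axes, inside private regions.
-/

set_option autoImplicit false

namespace Crest.Agent.H27

open Crest.AnalysisR.BoxFlow

/-- `(x - c)` times a cutoff. -/
noncomputable def ramp (c p q δ : ℚ) (x : ℝ) : ℝ := (x - (c : ℝ)) * cut p q δ x

theorem nice_ramp (c : ℚ) {p q δ : ℚ} (hδ : 0 < δ) (hpq : p ≤ q) : Nice (ramp c p q δ) := by
  apply (nice_cut p q δ).sub_mul c (D := |(p : ℝ)| + |(q : ℝ)| + δ + |(c : ℝ)|)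
  intro x hx
  have hd : (0 : ℝ) < δ := by exact_mod_cast hδ
  have h1 : |x - c| ≤ |x| + |(c : ℝ)| := abs_sub _ _
  have h2 : |(p : ℝ)| + |(q : ℝ)| + δ < |x| := by linarith
  have h3 := neg_abs_le (p : ℝ)
  have h4 := le_abs_self (q : ℝ)
  have h5 := abs_nonneg (p : ℝ)
  have h6 := abs_nonneg (q : ℝ)
  rcases le_total 0 x with h0 | h0
  · rw [abs_of_nonneg h0] at h2
    exact cut_eq_zero_right hδ hpq (by linarith)
  · rw [abs_of_nonpos h0] at h2
    exact cut_eq_zero_left hδ hpq (by linarith)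

theorem cut_zero_off {p q δ : ℚ} (hδ : 0 < δ) (hpq : p ≤ q) :
    ∀ x : ℝ, x ∉ Set.Icc ((p - δ : ℚ) : ℝ) ((q + δ : ℚ) : ℝ) → cut p q δ x = 0 := by
  intro x hx
  rw [Set.mem_Icc, not_and_or, not_le, not_le] at hx
  push_cast at hx
  rcases hx with hx | hx
  · exact cut_eq_zero_left hδ hpq hx.le
  · exact cut_eq_zero_right hδ hpq hx.le

theorem ramp_zero_off (c : ℚ) {p q δ : ℚ} (hδ : 0 < δ) (hpq : p ≤ q) :
    ∀ x : ℝ, x ∉ Set.Icc ((p - δ : ℚ) : ℝ) ((q + δ : ℚ) : ℝ) → ramp c p q δ x = 0 := by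
  intro x hx
  rw [ramp, cut_zero_off hδ hpq x hx, mul_zero]

theorem cut_nhds {p q δ : ℚ} (hδ : 0 < δ) {x : ℝ} (h1 : p < x) (h2 : x < q) :
    cut p q δ =ᶠ[nhds x] fun _ => 1 := by
  filter_upwards [Ioo_mem_nhds h1 h2] with y hy
  exact cut_eq_one hδ hy.1.le hy.2.le

theorem deriv_cut {p q δ : ℚ} (hδ : 0 < δ) {x : ℝ} (h1 : p < x) (h2 : x < q) :
    deriv (cut p q δ) x = 0 := by
  rw [(cut_nhds hδ h1 h2).deriv_eq]; simp

theorem ramp_nhds (c : ℚ) {p q δ : ℚ} (hδ : 0 < δ) {x : ℝ} (h1 : p < x) (h2 : x < q) :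
    ramp c p q δ =ᶠ[nhds x] fun y => y - c := by
  filter_upwards [cut_nhds hδ h1 h2] with y hy
  rw [ramp, hy, mul_one]

theorem ramp_eq (c : ℚ) {p q δ : ℚ} (hδ : 0 < δ) {x : ℝ} (h1 : p < x) (h2 : x < q) :
    ramp c p q δ x = x - c := (ramp_nhds c hδ h1 h2).self_of_nhds

theorem deriv_ramp (c : ℚ) {p q δ : ℚ} (hδ : 0 < δ) {x : ℝ} (h1 : p < x) (h2 : x < q) :
    deriv (ramp c p q δ) x = 1 := by
  rw [(ramp_nhds c hδ h1 h2).deriv_eq]
  rw [deriv_sub_const]; simp

theorem prod3_eq_prod (g : Fin 3 → ℝ → ℝ) (x : Fin 3 → ℝ) : prod3 g x = ∏ l, g l (x l) := by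
  rw [Fin.prod_univ_three]; rfl

theorem prod3_eq_one {g : Fin 3 → ℝ → ℝ} {x : Fin 3 → ℝ} (h : ∀ l, g l (x l) = 1) :
    prod3 g x = 1 := by
  rw [prod3_eq_prod]; exact Finset.prod_eq_one fun l _ => h l

theorem prod3_eq_single {g : Fin 3 → ℝ → ℝ} {x : Fin 3 → ℝ} (i : Fin 3)
    (h : ∀ l, l ≠ i → g l (x l) = 1) : prod3 g x = g i (x i) := by
  rw [prod3_eq_prod]
  exact Finset.prod_eq_single i (fun l _ hl => h l hl) (fun hi => absurd (Finset.mem_univ _) hi)

/-- The open set of points which stay, together with their image, in the open region `(p, q)`. -/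
def Oset (a h b k p q : Fin 3 → ℚ) : Set (Fin 3 → ℝ) :=
  {x | ∀ l, ((p l : ℝ) < x l ∧ x l < q l) ∧
    ((p l : ℝ) < affMap a h b k x l ∧ affMap a h b k x l < q l)}

theorem isOpen_Oset (a h b k p q : Fin 3 → ℚ) : IsOpen (Oset a h b k p q) := by
  unfold Oset
  rw [Set.ofPred_forall]
  refine isOpen_iInter_of_finite fun l => ?_
  have hc : Continuous fun x : Fin 3 → ℝ => affMap a h b k x l :=
    (continuous_apply l).comp (continuous_affMap a h b k)
  exact ((isOpen_lt continuous_const (continuous_apply l)).inter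
    (isOpen_lt (continuous_apply l) continuous_const)).inter
    ((isOpen_lt continuous_const hc).inter (isOpen_lt hc continuous_const))

theorem box_subset_Oset {a h b k p q : Fin 3 → ℚ} (hh : ∀ l, 0 < h l) (hk : ∀ l, 0 < k l)
    (hpa : ∀ l, p l < a l - h l) (hpb : ∀ l, p l < b l - k l) (hqa : ∀ l, a l + h l < q l)
    (hqb : ∀ l, b l + k l < q l) : box a h ⊆ Oset a h b k p q := by
  intro x hx l
  have h1 := abs_le.1 (hx l)
  have h2 := abs_le.1 (affMap_mem_box (b := b) hh hk hx l)
  have e1 : (p l : ℝ) < a l - h l := by exact_mod_cast hpa l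
  have e2 : (p l : ℝ) < b l - k l := by exact_mod_cast hpb l
  have e3 : (a l : ℝ) + h l < q l := by exact_mod_cast hqa l
  have e4 : (b l : ℝ) + k l < q l := by exact_mod_cast hqb l
  exact ⟨⟨by linarith [h1.1], by linarith [h1.2]⟩, ⟨by linarith [h2.1], by linarith [h2.2]⟩⟩

/-- Private region data. -/
structure Priv {n : ℕ} (a h b k P Q : Fin n → Fin 3 → ℚ) : Prop where
  Pa : ∀ m l, P m l < a m l - h m l
  Pb : ∀ m l, P m l < b m l - k m l
  Qa : ∀ m l, a m l + h m l < Q m l
  Qb : ∀ m l, b m l + k m l < Q m l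
  disj : ∀ m m', m ≠ m' → ∃ l, Q m l < P m' l ∨ Q m' l < P m l

/-- margin -/
def marg {n : ℕ} (a h b k P Q : Fin n → Fin 3 → ℚ) (m : Fin n) (l : Fin 3) : ℚ :=
  min (min (a m l - h m l - P m l) (b m l - k m l - P m l))
    (min (Q m l - a m l - h m l) (Q m l - b m l - k m l)) / 2

section

variable {n : ℕ} {a h b k P Q : Fin n → Fin 3 → ℚ}

theorem Priv.marg_pos (H : Priv a h b k P Q) (m : Fin n) (l : Fin 3) : 0 < marg a h b k P Q m l := by
  have h1 := H.Pa m l
  have h2 := H.Pb m l
  have h3 := H.Qa m l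
  have h4 := H.Qb m l
  unfold marg
  apply div_pos _ (by norm_num)
  simp only [lt_min_iff]
  refine ⟨⟨?_, ?_⟩, ?_, ?_⟩ <;> linarith

theorem Priv.marg_le (H : Priv a h b k P Q) (m : Fin n) (l : Fin 3) :
    P m l + marg a h b k P Q m l < a m l - h m l ∧ P m l + marg a h b k P Q m l < b m l - k m l ∧
    a m l + h m l < Q m l - marg a h b k P Q m l ∧ b m l + k m l < Q m l - marg a h b k P Q m l := by
  have h0 := H.marg_pos m l
  have e : marg a h b k P Q m l * 2 = min (min (a m l - h m l - P m l) (b m l - k m l - P m l))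
    (min (Q m l - a m l - h m l) (Q m l - b m l - k m l)) := by unfold marg; ring
  have h1 : marg a h b k P Q m l * 2 ≤ a m l - h m l - P m l := by
    rw [e]; exact (min_le_left _ _).trans (min_le_left _ _)
  have h2 : marg a h b k P Q m l * 2 ≤ b m l - k m l - P m l := by
    rw [e]; exact (min_le_left _ _).trans (min_le_right _ _)
  have h3 : marg a h b k P Q m l * 2 ≤ Q m l - a m l - h m l := by
    rw [e]; exact (min_le_right _ _).trans (min_le_left _ _)
  have h4 : marg a h b k P Q m l * 2 ≤ Q m l - b m l - k m l := by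
    rw [e]; exact (min_le_right _ _).trans (min_le_right _ _)
  refine ⟨?_, ?_, ?_, ?_⟩ <;> linarith

theorem Priv.pq (H : Priv a h b k P Q) (hh : ∀ m l, 0 < h m l) (m : Fin n) (l : Fin 3) :
    P m l + marg a h b k P Q m l ≤ Q m l - marg a h b k P Q m l := by
  obtain ⟨h1, _, h3, _⟩ := H.marg_le m l
  have := hh m l
  linarith

theorem seg_pos {u v s : ℝ} (hu : 0 < u) (hv : 0 < v) (s0 : 0 ≤ s) (s1 : s ≤ 1) :
    0 < (1 - s) * u + s * v := by
  rcases s0.eq_or_lt with h | h
  · rw [← h]; linarith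
  · exact add_pos_of_nonneg_of_pos (mul_nonneg (by linarith) hu.le) (mul_pos h hv)

/-- Shift along axis `i`. -/
theorem shift_reach (i : Fin 3) (H : Priv a h b h P Q) (hh : ∀ m l, 0 < h m l)
    (hab : ∀ m l, l ≠ i → b m l = a m l) : Reach a h b h := by
  set δ := marg a h b h P Q with hδdef
  set p : Fin n → Fin 3 → ℚ := fun m l => P m l + δ m l with hp
  set q : Fin n → Fin 3 → ℚ := fun m l => Q m l - δ m l with hq
  have hδ : ∀ m l, 0 < δ m l := H.marg_pos
  have hpq : ∀ m l, p m l ≤ q m l := H.pq hh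
  obtain ⟨j, hij⟩ : ∃ j : Fin 3, i ≠ j := by
    fin_cases i
    · exact ⟨1, by decide⟩
    · exact ⟨2, by decide⟩
    · exact ⟨0, by decide⟩
  set f : Fin n → Fin 3 → ℝ → ℝ := fun m l =>
    if l = j then ramp 0 (p m l) (q m l) (δ m l) else cut (p m l) (q m l) (δ m l) with hf
  have haff : ∀ m x l, affMap (a m) (h m) (b m) (h m) x l = x l + ((b m l : ℝ) - a m l) := by
    intro m x l
    unfold affMap
    rw [div_self (hh m l).ne']
    push_cast; ring
  have hpos : ∀ m, ∀ x ∈ Oset (a m) (h m) (b m) (h m) (p m) (q m), ∀ s ∈ Set.Icc (0 : ℝ) 1, ∀ l,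
      (p m l : ℝ) < x l + s * ((b m l : ℝ) - a m l) ∧
      x l + s * ((b m l : ℝ) - a m l) < q m l := by
    intro m x hx s hs l
    obtain ⟨⟨h1, h2⟩, h3, h4⟩ := hx l
    rw [haff] at h3 h4
    obtain ⟨s0, s1⟩ := hs
    have g1 := seg_pos (sub_pos.2 h1) (sub_pos.2 h3) s0 s1
    have g2 := seg_pos (sub_pos.2 h2) (sub_pos.2 h4) s0 s1
    constructor
    · linarith
    · linarith
  refine elem_reach (i := i) (j := j) hij (f := f) (lo := fun m l => (P m l : ℝ))
    (hi := fun m l => (Q m l : ℝ)) (ρ := fun m => ((b m i - a m i : ℚ) : ℝ))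
    (O := fun m => Oset (a m) (h m) (b m) (h m) (p m) (q m))
    (c := fun m x s => x + s • (fun l => (b m l : ℝ) - a m l)) ?_ ?_ ?_ ?_ ?_ ?_ ?_ ?_ ?_ ?_
  · intro m l
    simp only [hf]
    split_ifs
    · exact nice_ramp 0 (hδ m l) (hpq m l)
    · exact nice_cut _ _ _
  · intro m l x hx
    have hx' : x ∉ Set.Icc ((p m l - δ m l : ℚ) : ℝ) ((q m l + δ m l : ℚ) : ℝ) := by
      simpa [hp, hq] using hx
    simp only [hf]
    split_ifs
    · exact ramp_zero_off 0 (hδ m l) (hpq m l) x hx'
    · exact cut_zero_off (hδ m l) (hpq m l) x hx'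
  · intro m m' hm
    obtain ⟨l, hl⟩ := H.disj m m' hm
    exact ⟨l, by exact_mod_cast hl⟩
  · intro m; exact PReal.ratConst _
  · intro m; exact isOpen_Oset _ _ _ _ _ _
  · intro m
    exact box_subset_Oset (hh m) (hh m) (fun l => (H.marg_le m l).1) (fun l => (H.marg_le m l).2.1)
      (fun l => (H.marg_le m l).2.2.1) (fun l => (H.marg_le m l).2.2.2)
  · intro m x _; simp
  · intro m x _
    funext l
    rw [haff]
    simp
  · intro m x hx s hs l
    obtain ⟨h1, h2⟩ := hpos m x hx s hs l
    have hd : (0 : ℝ) < δ m l := by exact_mod_cast hδ m l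
    simp only [Pi.add_apply, Pi.smul_apply, smul_eq_mul]
    have e1 : (p m l : ℝ) = P m l + δ m l := by simp [hp]
    have e2 : (q m l : ℝ) = Q m l - δ m l := by simp [hq]
    constructor <;> linarith
  · intro m x hx s hs
    have hr := hpos m x hx s hs
    have hval : ∀ l, (x + s • (fun l => (b m l : ℝ) - a m l)) l = x l + s * ((b m l : ℝ) - a m l) := by
      intro l; simp
    have e1 : prod3 (Function.update (f m) j (deriv (f m j)))
        (x + s • (fun l => (b m l : ℝ) - a m l)) = 1 := by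
      apply prod3_eq_one
      intro l
      rw [hval]
      by_cases hl : l = j
      · subst hl
        rw [Function.update_self]
        have : f m l = ramp 0 (p m l) (q m l) (δ m l) := by simp [hf]
        rw [this]
        exact deriv_ramp 0 (hδ m l) (hr l).1 (hr l).2
      · rw [Function.update_of_ne hl]
        have : f m l = cut (p m l) (q m l) (δ m l) := by simp [hf, hl]
        rw [this]
        exact cut_eq_one (hδ m l) (hr l).1.le (hr l).2.le
    have e2 : prod3 (Function.update (f m) i (deriv (f m i)))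
        (x + s • (fun l => (b m l : ℝ) - a m l)) = 0 := by
      apply prod3_eq_zero i
      rw [Function.update_self, hval]
      have : f m i = cut (p m i) (q m i) (δ m i) := by simp [hf, hij]
      rw [this]
      exact deriv_cut (hδ m i) (hr i).1 (hr i).2
    have h1 : HasDerivAt (fun s : ℝ => x + s • (fun l => (b m l : ℝ) - a m l))
        ((1 : ℝ) • (fun l => (b m l : ℝ) - a m l)) s :=
      ((hasDerivAt_id s).smul_const _).const_add x
    refine h1.congr_deriv ?_
    rw [e1, e2]
    funext l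
    by_cases hl : l = i
    · subst hl; simp
    · simp [hab m l hl, Pi.single_eq_of_ne hl]

/-- Squeeze in the axes `i, j`. -/
theorem squeeze_reach (i j : Fin 3) (hij : i ≠ j) (H : Priv a h a k P Q) (hh : ∀ m l, 0 < h m l)
    (hk : ∀ m l, 0 < k m l) (hprod : ∀ m, k m i * k m j = h m i * h m j)
    (hother : ∀ m l, l ≠ i → l ≠ j → k m l = h m l) : Reach a h a k := by
  set δ := marg a h a k P Q with hδdef
  set p : Fin n → Fin 3 → ℚ := fun m l => P m l + δ m l with hp
  set q : Fin n → Fin 3 → ℚ := fun m l => Q m l - δ m l with hq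
  have hδ : ∀ m l, 0 < δ m l := H.marg_pos
  have hpq : ∀ m l, p m l ≤ q m l := H.pq hh
  set f : Fin n → Fin 3 → ℝ → ℝ := fun m l =>
    if l = i ∨ l = j then ramp (a m l) (p m l) (q m l) (δ m l) else cut (p m l) (q m l) (δ m l)
    with hf
  set r : Fin n → ℚ := fun m => k m i / h m i with hr
  have hrpos : ∀ m, 0 < r m := fun m => div_pos (hk m i) (hh m i)
  have hrpos' : ∀ m, (0 : ℝ) < r m := fun m => by exact_mod_cast hrpos m
  set e : Fin n → Fin 3 → ℝ := fun m l =>
    if l = i then Real.log (r m) else if l = j then -Real.log (r m) else 0 with he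
  have hexp : ∀ m l, Real.exp (e m l) = ((k m l / h m l : ℚ) : ℝ) := by
    intro m l
    simp only [he]
    split_ifs with h1 h2
    · subst h1; rw [Real.exp_log (hrpos' m)]
    · subst h2
      rw [Real.exp_neg, Real.exp_log (hrpos' m)]
      rw [← Rat.cast_inv]
      congr 1
      simp only [hr]
      rw [inv_div, div_eq_div_iff (hk m i).ne' (hh m l).ne']
      have := hprod m
      linarith
    · rw [hother m l h1 h2, div_self (hh m l).ne']; simp
  set c : Fin n → (Fin 3 → ℝ) → ℝ → (Fin 3 → ℝ) := fun m x s l =>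
    (a m l : ℝ) + (x l - a m l) * Real.exp (s * e m l) with hc
  have hpos : ∀ m, ∀ x ∈ Oset (a m) (h m) (a m) (k m) (p m) (q m), ∀ s ∈ Set.Icc (0 : ℝ) 1, ∀ l,
      (p m l : ℝ) < c m x s l ∧ c m x s l < q m l := by
    intro m x hx s hs l
    obtain ⟨⟨h1, h2⟩, h3, h4⟩ := hx l
    unfold affMap at h3 h4
    rw [← hexp] at h3 h4
    obtain ⟨s0, s1⟩ := hs
    simp only [hc]
    rcases le_total 0 (e m l) with h0 | h0
    · have g1 : 1 ≤ Real.exp (s * e m l) := Real.one_le_exp (mul_nonneg s0 h0)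
      have g2 : Real.exp (s * e m l) ≤ Real.exp (e m l) :=
        Real.exp_le_exp.2 (by nlinarith)
      rcases le_total 0 (x l - a m l) with hy | hy
      · constructor <;> nlinarith
      · constructor <;> nlinarith
    · have g1 : Real.exp (s * e m l) ≤ 1 :=
        Real.exp_le_one_iff.2 (mul_nonpos_of_nonneg_of_nonpos s0 h0)
      have g2 : Real.exp (e m l) ≤ Real.exp (s * e m l) :=
        Real.exp_le_exp.2 (by nlinarith)
      rcases le_total 0 (x l - a m l) with hy | hy
      · constructor <;> nlinarith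
      · constructor <;> nlinarith
  refine elem_reach (i := i) (j := j) hij (f := f) (lo := fun m l => (P m l : ℝ))
    (hi := fun m l => (Q m l : ℝ)) (ρ := fun m => Real.log (r m))
    (O := fun m => Oset (a m) (h m) (a m) (k m) (p m) (q m))
    (c := c) ?_ ?_ ?_ ?_ ?_ ?_ ?_ ?_ ?_ ?_
  · intro m l
    simp only [hf]
    split_ifs
    · exact nice_ramp _ (hδ m l) (hpq m l)
    · exact nice_cut _ _ _
  · intro m l x hx
    have hx' : x ∉ Set.Icc ((p m l - δ m l : ℚ) : ℝ) ((q m l + δ m l : ℚ) : ℝ) := by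
      simpa [hp, hq] using hx
    simp only [hf]
    split_ifs
    · exact ramp_zero_off _ (hδ m l) (hpq m l) x hx'
    · exact cut_zero_off (hδ m l) (hpq m l) x hx'
  · intro m m' hm
    obtain ⟨l, hl⟩ := H.disj m m' hm
    exact ⟨l, by exact_mod_cast hl⟩
  · intro m; exact preal_log (hrpos m)
  · intro m; exact isOpen_Oset _ _ _ _ _ _
  · intro m
    exact box_subset_Oset (hh m) (hk m) (fun l => (H.marg_le m l).1) (fun l => (H.marg_le m l).2.1)
      (fun l => (H.marg_le m l).2.2.1) (fun l => (H.marg_le m l).2.2.2)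
  · intro m x _; funext l; simp [hc]
  · intro m x _
    funext l
    simp only [hc, affMap]
    rw [one_mul, hexp, mul_comm]
  · intro m x hx s hs l
    obtain ⟨h1, h2⟩ := hpos m x hx s hs l
    have hd : (0 : ℝ) < δ m l := by exact_mod_cast hδ m l
    have e1 : (p m l : ℝ) = P m l + δ m l := by simp [hp]
    have e2 : (q m l : ℝ) = Q m l - δ m l := by simp [hq]
    constructor <;> linarith
  · intro m x hx s hs
    have hr' := hpos m x hx s hs
    have fi : ∀ l, (l = i ∨ l = j) → f m l = ramp (a m l) (p m l) (q m l) (δ m l) := by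
      intro l hl; simp only [hf]; rw [if_pos hl]
    have fo : ∀ l, ¬ (l = i ∨ l = j) → f m l = cut (p m l) (q m l) (δ m l) := by
      intro l hl; simp only [hf]; rw [if_neg hl]
    have key : ∀ u v : Fin 3, u ≠ v → (∀ l, (l = u ∨ l = v) ↔ (l = i ∨ l = j)) →
        prod3 (Function.update (f m) v (deriv (f m v))) (c m x s) = c m x s u - a m u := by
      intro u v huv hl'
      rw [prod3_eq_single u]
      · rw [Function.update_of_ne huv, fi u ((hl' u).1 (Or.inl rfl))]
        exact ramp_eq _ (hδ m u) (hr' u).1 (hr' u).2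
      · intro l hlu
        by_cases hlv : l = v
        · subst hlv
          rw [Function.update_self, fi l ((hl' l).1 (Or.inr rfl))]
          exact deriv_ramp _ (hδ m l) (hr' l).1 (hr' l).2
        · rw [Function.update_of_ne hlv, fo l (fun h => by
            rcases (hl' l).2 h with h | h
            · exact hlu h
            · exact hlv h)]
          exact cut_eq_one (hδ m l) (hr' l).1.le (hr' l).2.le
    have e1 := key i j hij (fun l => Iff.rfl)
    have e2 := key j i hij.symm (fun l => or_comm)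
    rw [e1, e2]
    have h1 : HasDerivAt (c m x) (fun l => e m l * (c m x s l - a m l)) s := by
      apply hasDerivAt_pi.2
      intro l
      simp only [hc]
      have d1 : HasDerivAt (fun s : ℝ => s * e m l) (e m l) s := by
        simpa using (hasDerivAt_id s).mul_const (e m l)
      have d2 := ((d1.exp).const_mul (x l - a m l)).const_add (a m l : ℝ)
      refine d2.congr_deriv ?_
      ring
    refine h1.congr_deriv ?_
    funext l
    simp only [Pi.smul_apply, Pi.sub_apply, smul_eq_mul, he]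
    by_cases hl : l = i
    · subst hl; simp [Pi.single_eq_of_ne hij]
    · by_cases hl2 : l = j
      · subst hl2; simp [hl]; ring
      · simp [hl, hl2]

end

end Crest.Agent.H27
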