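import Mathlib

/-!
A smooth step function `S` (the Fabius function on `[0,1]`, extended by `0` and `1`), built as the limit
of the step functions `A M`.
-/

set_option autoImplicit false

namespace Crest.Agent.H27

open Finset

/-- Dyadic approximants. -/
noncomputable def A : ℕ → ℝ → ℝ
  | 0, x => if 0 ≤ x then 1 else 0
  | M + 1, x => (1 / 2 ^ M) * ∑ j ∈ range (2 ^ M), A M (2 * x - j / 2 ^ M)

theorem A_zero (x : ℝ) : A 0 x = if 0 ≤ x then 1 else 0 := rfl

theorem A_succ (M : ℕ) (x : ℝ) :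
    A (M + 1) x = (1 / 2 ^ M) * ∑ j ∈ range (2 ^ M), A M (2 * x - j / 2 ^ M) := rfl

theorem A_nonneg (M : ℕ) (x : ℝ) : 0 ≤ A M x := by
  induction M generalizing x with
  | zero => rw [A_zero]; split_ifs <;> norm_num
  | succ M ih =>
    rw [A_succ]
    exact mul_nonneg (by positivity) (Finset.sum_nonneg fun j _ => ih _)

theorem A_le_one (M : ℕ) (x : ℝ) : A M x ≤ 1 := by
  induction M generalizing x with
  | zero => rw [A_zero]; split_ifs <;> norm_num
  | succ M ih =>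
    rw [A_succ]
    calc (1 / 2 ^ M : ℝ) * ∑ j ∈ range (2 ^ M), A M (2 * x - j / 2 ^ M)
        ≤ (1 / 2 ^ M : ℝ) * ∑ j ∈ range (2 ^ M), (1 : ℝ) := by
          apply mul_le_mul_of_nonneg_left (Finset.sum_le_sum fun j _ => ih _) (by positivity)
      _ = 1 := by simp

theorem A_of_neg (M : ℕ) {x : ℝ} (hx : x < 0) : A M x = 0 := by
  induction M generalizing x with
  | zero => rw [A_zero, if_neg (not_le.2 hx)]
  | succ M ih =>
    rw [A_succ]
    rw [Finset.sum_eq_zero, mul_zero]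
    intro j _
    apply ih
    have : (0 : ℝ) ≤ (j : ℝ) / 2 ^ M := by positivity
    linarith

theorem A_of_one_le (M : ℕ) {x : ℝ} (hx : 1 ≤ x) : A M x = 1 := by
  induction M generalizing x with
  | zero => rw [A_zero, if_pos (by linarith)]
  | succ M ih =>
    rw [A_succ]
    rw [Finset.sum_congr rfl (g := fun _ => (1 : ℝ))]
    · simp
    intro j hj
    apply ih
    have hj' : (j : ℝ) ≤ 2 ^ M := by
      exact_mod_cast (Finset.mem_range.1 hj).le
    have : (j : ℝ) / 2 ^ M ≤ 1 := by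
      rw [div_le_one (by positivity)]; exact hj'
    linarith

theorem A_mono (M : ℕ) : Monotone (A M) := by
  induction M with
  | zero =>
    intro x y hxy
    rw [A_zero, A_zero]
    split_ifs with h1 h2
    · exact le_refl _
    · exact absurd (h1.trans hxy) h2
    · norm_num
    · exact le_refl _
  | succ M ih =>
    intro x y hxy
    rw [A_succ, A_succ]
    refine mul_le_mul_of_nonneg_left (Finset.sum_le_sum fun j _ => ih ?_) (by positivity)
    linarith

theorem A_step (M : ℕ) (x : ℝ) : A M (x + 1 / 2 ^ M) - A M x ≤ 2 / 2 ^ M := by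
  cases M with
  | zero =>
    have := A_le_one 0 (x + 1 / 2 ^ 0)
    have := A_nonneg 0 x
    norm_num at *
    linarith
  | succ M =>
    rw [A_succ, A_succ, ← mul_sub, ← Finset.sum_sub_distrib]
    have h1 : ∀ j ∈ range (2 ^ M),
        A M (2 * (x + 1 / 2 ^ (M + 1)) - j / 2 ^ M) - A M (2 * x - j / 2 ^ M) =
        (fun i : ℕ => - A M (2 * x + 1 / 2 ^ M - i / 2 ^ M)) (j + 1) -
          (fun i : ℕ => - A M (2 * x + 1 / 2 ^ M - i / 2 ^ M)) j := by
      intro j _
      simp only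
      have e1 : 2 * (x + 1 / 2 ^ (M + 1)) - (j : ℝ) / 2 ^ M = 2 * x + 1 / 2 ^ M - j / 2 ^ M := by
        rw [pow_succ]; field_simp
      have e2 : 2 * x + 1 / 2 ^ M - ((j + 1 : ℕ) : ℝ) / 2 ^ M = 2 * x - j / 2 ^ M := by
        push_cast; field_simp; ring
      rw [e1, e2]; ring
    rw [Finset.sum_congr rfl h1,
      Finset.sum_range_sub (fun i : ℕ => - A M (2 * x + 1 / 2 ^ M - i / 2 ^ M))]
    have h2 := A_le_one M (2 * x + 1 / 2 ^ M - (0 : ℕ) / 2 ^ M)
    have h3 := A_nonneg M (2 * x + 1 / 2 ^ M - ((2 ^ M : ℕ) : ℝ) / 2 ^ M)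
    calc (1 / 2 ^ M : ℝ) * (-A M (2 * x + 1 / 2 ^ M - ((2 ^ M : ℕ) : ℝ) / 2 ^ M) -
          -A M (2 * x + 1 / 2 ^ M - (0 : ℕ) / 2 ^ M)) ≤ (1 / 2 ^ M : ℝ) * 1 := by
          apply mul_le_mul_of_nonneg_left _ (by positivity)
          linarith
      _ = 2 / 2 ^ (M + 1) := by rw [pow_succ]; field_simp

theorem A_steps (M : ℕ) (x : ℝ) (i : ℕ) : A M (x + i / 2 ^ M) - A M x ≤ 2 * i / 2 ^ M := by
  induction i with
  | zero => simp
  | succ i ih =>
    have h := A_step M (x + i / 2 ^ M)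
    have e : x + i / 2 ^ M + 1 / 2 ^ M = x + ((i + 1 : ℕ) : ℝ) / 2 ^ M := by
      push_cast; ring
    rw [e] at h
    have e2 : 2 * ((i + 1 : ℕ) : ℝ) / 2 ^ M = 2 * i / 2 ^ M + 2 / 2 ^ M := by
      push_cast; ring
    rw [e2]; linarith

theorem sum_range_double (f : ℕ → ℝ) (n : ℕ) :
    ∑ j ∈ range (2 * n), f j = ∑ j ∈ range n, (f (2 * j) + f (2 * j + 1)) := by
  induction n with
  | zero => simp
  | succ n ih =>
    rw [show 2 * (n + 1) = 2 * n + 1 + 1 by ring, Finset.sum_range_succ, Finset.sum_range_succ, ih,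
      Finset.sum_range_succ]
    ring

theorem A_succ_le (M : ℕ) (x : ℝ) : A (M + 1) x ≤ A M x := by
  induction M generalizing x with
  | zero =>
    rw [A_succ, A_zero]
    simp only [pow_zero, Finset.range_one, Finset.sum_singleton, Nat.cast_zero, sub_zero,
      div_one, one_mul, A_zero]
    split_ifs with h1 h2
    · exact le_refl _
    · exact absurd (by linarith : 0 ≤ x) h2
    · norm_num
    · exact le_refl _
  | succ M ih =>
    rw [A_succ (M + 1), A_succ M]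
    have e0 : (2 ^ (M + 1) : ℕ) = 2 * 2 ^ M := by rw [pow_succ]; ring
    rw [e0, sum_range_double]
    have h1 : ∀ j ∈ range (2 ^ M),
        (A (M + 1) (2 * x - ((2 * j : ℕ) : ℝ) / (2 ^ (M + 1))) +
          A (M + 1) (2 * x - ((2 * j + 1 : ℕ) : ℝ) / (2 ^ (M + 1)))) ≤ 2 * A M (2 * x - j / 2 ^ M) := by
      intro j _
      have e1 : ((2 * j : ℕ) : ℝ) / (2 ^ (M + 1)) = j / 2 ^ M := by
        push_cast; rw [pow_succ]; field_simp
      have h2 := ih (2 * x - ((2 * j : ℕ) : ℝ) / (2 ^ (M + 1)))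
      have h3 := ih (2 * x - ((2 * j + 1 : ℕ) : ℝ) / (2 ^ (M + 1)))
      have h4 : A M (2 * x - ((2 * j + 1 : ℕ) : ℝ) / (2 ^ (M + 1))) ≤
          A M (2 * x - ((2 * j : ℕ) : ℝ) / (2 ^ (M + 1))) := by
        apply A_mono
        have : ((2 * j : ℕ) : ℝ) / (2 ^ (M + 1)) ≤ ((2 * j + 1 : ℕ) : ℝ) / (2 ^ (M + 1)) := by
          gcongr; omega
        linarith
      rw [e1] at h2 h4 ⊢
      linarith
    have h5 := Finset.sum_le_sum h1
    rw [← Finset.mul_sum] at h5
    have h6 : (0 : ℝ) < 2 ^ M := by positivity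
    calc (1 / 2 ^ (M + 1) : ℝ) * ∑ j ∈ range (2 ^ M),
        (A (M + 1) (2 * x - ((2 * j : ℕ) : ℝ) / (2 ^ (M + 1))) +
          A (M + 1) (2 * x - ((2 * j + 1 : ℕ) : ℝ) / (2 ^ (M + 1))))
        ≤ (1 / 2 ^ (M + 1) : ℝ) * (2 * ∑ j ∈ range (2 ^ M), A M (2 * x - j / 2 ^ M)) :=
          mul_le_mul_of_nonneg_left h5 (by positivity)
      _ = _ := by
          generalize (∑ j ∈ range (2 ^ M), A M (2 * x - j / 2 ^ M)) = s
          rw [pow_succ]; field_simp

theorem A_shift_le_succ (M : ℕ) (x : ℝ) : A M (x - M / 2 ^ (M + 1)) ≤ A (M + 1) x := by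
  induction M generalizing x with
  | zero =>
    rw [A_succ, A_zero]
    simp only [pow_zero, Finset.range_one, Finset.sum_singleton, Nat.cast_zero, zero_div, sub_zero,
      div_one, one_mul, A_zero]
    split_ifs with h1 h2
    · exact le_refl _
    · exact absurd (by linarith : 0 ≤ 2 * x) h2
    · norm_num
    · exact le_refl _
  | succ M ih =>
    rw [A_succ (M + 1), A_succ M]
    have e0 : (2 ^ (M + 1) : ℕ) = 2 * 2 ^ M := by rw [pow_succ]; ring
    rw [e0, sum_range_double]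
    have h1 : ∀ j ∈ range (2 ^ M),
        2 * A M (2 * (x - ((M + 1 : ℕ) : ℝ) / 2 ^ (M + 1 + 1)) - j / 2 ^ M) ≤
        (A (M + 1) (2 * x - ((2 * j : ℕ) : ℝ) / (2 ^ (M + 1))) +
          A (M + 1) (2 * x - ((2 * j + 1 : ℕ) : ℝ) / (2 ^ (M + 1)))) := by
      intro j _
      have h2 := ih (2 * x - ((2 * j : ℕ) : ℝ) / (2 ^ (M + 1)))
      have h3 := ih (2 * x - ((2 * j + 1 : ℕ) : ℝ) / (2 ^ (M + 1)))
      have e4 : 2 * (x - ((M + 1 : ℕ) : ℝ) / 2 ^ (M + 1 + 1)) - j / 2 ^ M =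
          2 * x - ((2 * j + 1 : ℕ) : ℝ) / (2 ^ (M + 1)) - M / 2 ^ (M + 1) := by
        push_cast; rw [pow_succ, pow_succ]; field_simp; ring
      have h4 : A M (2 * x - ((2 * j + 1 : ℕ) : ℝ) / (2 ^ (M + 1)) - M / 2 ^ (M + 1)) ≤
          A M (2 * x - ((2 * j : ℕ) : ℝ) / (2 ^ (M + 1)) - M / 2 ^ (M + 1)) := by
        apply A_mono
        have : ((2 * j : ℕ) : ℝ) / (2 ^ (M + 1)) ≤ ((2 * j + 1 : ℕ) : ℝ) / (2 ^ (M + 1)) := by
          gcongr; omega
        linarith
      rw [e4]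
      linarith
    have h5 := Finset.sum_le_sum h1
    rw [← Finset.mul_sum] at h5
    have h6 : (0 : ℝ) < 2 ^ M := by positivity
    calc (1 / 2 ^ M : ℝ) * ∑ j ∈ range (2 ^ M),
          A M (2 * (x - ((M + 1 : ℕ) : ℝ) / 2 ^ (M + 1 + 1)) - j / 2 ^ M)
        = (1 / 2 ^ (M + 1) : ℝ) * (2 * ∑ j ∈ range (2 ^ M),
          A M (2 * (x - ((M + 1 : ℕ) : ℝ) / 2 ^ (M + 1 + 1)) - j / 2 ^ M)) := by
          generalize (∑ j ∈ range (2 ^ M),
            A M (2 * (x - ((M + 1 : ℕ) : ℝ) / 2 ^ (M + 1 + 1)) - j / 2 ^ M)) = s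
          rw [pow_succ]; field_simp
      _ ≤ _ := mul_le_mul_of_nonneg_left h5 (by positivity)

theorem A_sub_succ (M : ℕ) (x : ℝ) : A M x - A (M + 1) x ≤ 2 * M / 2 ^ M := by
  have h1 := A_shift_le_succ M x
  have h2 := A_steps M (x - M / 2 ^ M) M
  rw [sub_add_cancel] at h2
  have h3 : A M (x - M / 2 ^ M) ≤ A M (x - M / 2 ^ (M + 1)) := by
    apply A_mono
    have : (M : ℝ) / 2 ^ (M + 1) ≤ M / 2 ^ M := by
      gcongr
      · norm_num
      · omega
    linarith
  linarith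

/-- The smooth step function. -/
noncomputable def S (x : ℝ) : ℝ := ⨅ M, A M x

theorem A_antitone (x : ℝ) : Antitone fun M => A M x :=
  antitone_nat_of_succ_le fun M => A_succ_le M x

theorem A_bddBelow (x : ℝ) : BddBelow (Set.range fun M => A M x) :=
  ⟨0, by rintro _ ⟨M, rfl⟩; exact A_nonneg M x⟩

theorem S_le_A (M : ℕ) (x : ℝ) : S x ≤ A M x := ciInf_le (A_bddBelow x) M

theorem tendsto_A (x : ℝ) : Filter.Tendsto (fun M => A M x) Filter.atTop (nhds (S x)) :=
  tendsto_atTop_ciInf (A_antitone x) (A_bddBelow x)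

theorem A_le_S (M : ℕ) (x : ℝ) : A M x - 4 * (M + 1) / 2 ^ M ≤ S x := by
  have hmono : Monotone fun M : ℕ => A M x - 4 * ((M : ℝ) + 1) / 2 ^ M := by
    apply monotone_nat_of_le_succ
    intro M
    have h := A_sub_succ M x
    have e : (4 * (((M + 1 : ℕ) : ℝ) + 1) / 2 ^ (M + 1)) + 2 * M / 2 ^ M = 4 * (M + 1) / 2 ^ M := by
      push_cast; rw [pow_succ]; field_simp; ring
    linarith
  apply le_ciInf
  intro N
  rcases le_total M N with h | h
  · have h1 := hmono h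
    simp only at h1
    have : (0 : ℝ) ≤ 4 * ((N : ℝ) + 1) / 2 ^ N := by positivity
    linarith
  · have h1 := A_antitone x h
    simp only at h1
    have : (0 : ℝ) ≤ 4 * ((M : ℝ) + 1) / 2 ^ M := by positivity
    linarith

theorem abs_A_sub_S (M : ℕ) (x : ℝ) : |S x - A M x| ≤ 4 * (M + 1) / 2 ^ M := by
  rw [abs_le]
  constructor
  · have := A_le_S M x; linarith
  · have := S_le_A M x
    have : (0 : ℝ) ≤ 4 * ((M : ℝ) + 1) / 2 ^ M := by positivity
    linarith

theorem S_nonneg (x : ℝ) : 0 ≤ S x := le_ciInf fun M => A_nonneg M x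

theorem S_le_one (x : ℝ) : S x ≤ 1 := (S_le_A 0 x).trans (A_le_one 0 x)

theorem abs_S_le_one (x : ℝ) : |S x| ≤ 1 := abs_le.2 ⟨by linarith [S_nonneg x], S_le_one x⟩

theorem S_of_neg {x : ℝ} (hx : x < 0) : S x = 0 := by
  unfold S
  simp [A_of_neg _ hx]

theorem S_of_one_le {x : ℝ} (hx : 1 ≤ x) : S x = 1 := by
  unfold S
  simp [A_of_one_le _ hx]

theorem tendsto_two_div_pow : Filter.Tendsto (fun M : ℕ => (2 : ℝ) / 2 ^ M) Filter.atTop (nhds 0) := by
  have h := (tendsto_pow_atTop_nhds_zero_of_lt_one (r := (1 / 2 : ℝ)) (by norm_num) (by norm_num)).const_mul 2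
  rw [mul_zero] at h
  refine h.congr fun M => ?_
  rw [one_div, inv_pow]; ring

theorem S_sub_le {x y : ℝ} (h : x ≤ y) : S y - S x ≤ 2 * (y - x) := by
  have h1 : ∀ M : ℕ, A M y - A M x ≤ 2 * (y - x) + 2 / 2 ^ M := by
    intro M
    have h2 := A_steps M x ⌈(y - x) * 2 ^ M⌉₊
    have h3 : (⌈(y - x) * 2 ^ M⌉₊ : ℝ) < (y - x) * 2 ^ M + 1 :=
      Nat.ceil_lt_add_one (mul_nonneg (by linarith) (by positivity))
    have h4 : (y - x) * 2 ^ M ≤ (⌈(y - x) * 2 ^ M⌉₊ : ℝ) := Nat.le_ceil _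
    have hp : (0 : ℝ) < 2 ^ M := by positivity
    have h5 : A M y ≤ A M (x + ⌈(y - x) * 2 ^ M⌉₊ / 2 ^ M) := by
      apply A_mono
      have : y - x ≤ (⌈(y - x) * 2 ^ M⌉₊ : ℝ) / 2 ^ M := by
        rw [le_div_iff₀ hp]; exact h4
      linarith
    have h6 : 2 * (⌈(y - x) * 2 ^ M⌉₊ : ℝ) / 2 ^ M ≤ 2 * (y - x) + 2 / 2 ^ M := by
      rw [div_le_iff₀ hp, add_mul, div_mul_cancel₀ _ hp.ne']
      linarith
    linarith
  have h7 : Filter.Tendsto (fun M : ℕ => A M y - A M x) Filter.atTop (nhds (S y - S x)) :=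
    (tendsto_A y).sub (tendsto_A x)
  have h8 : Filter.Tendsto (fun M : ℕ => 2 * (y - x) + (2 : ℝ) / 2 ^ M) Filter.atTop
      (nhds (2 * (y - x) + 0)) := tendsto_const_nhds.add tendsto_two_div_pow
  rw [add_zero] at h8
  exact le_of_tendsto_of_tendsto' h7 h8 h1

theorem S_mono : Monotone S := fun _ _ hxy =>
  le_of_tendsto_of_tendsto' (tendsto_A _) (tendsto_A _) fun M => A_mono M hxy

theorem abs_S_sub_le (x y : ℝ) : |S y - S x| ≤ 2 * |y - x| := by
  rcases le_total x y with h | h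
  · rw [abs_of_nonneg (sub_nonneg.2 (S_mono h)), abs_of_nonneg (sub_nonneg.2 h)]
    exact S_sub_le h
  · rw [abs_sub_comm, abs_sub_comm y x, abs_of_nonneg (sub_nonneg.2 (S_mono h)),
      abs_of_nonneg (sub_nonneg.2 h)]
    exact S_sub_le h

theorem S_lipschitz : LipschitzWith 2 S :=
  LipschitzWith.of_dist_le_mul fun x y => by
    rw [Real.dist_eq, Real.dist_eq]
    exact abs_S_sub_le y x

theorem S_continuous : Continuous S := S_lipschitz.continuous

theorem S_zero : S 0 = 0 := by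
  apply le_antisymm _ (S_nonneg 0)
  apply le_of_forall_pos_le_add
  intro ε hε
  have h := S_sub_le (x := -(ε / 2)) (y := 0) (by linarith)
  rw [S_of_neg (by linarith : -(ε / 2) < 0)] at h
  linarith

theorem S_of_nonpos {x : ℝ} (hx : x ≤ 0) : S x = 0 := by
  rcases hx.lt_or_eq with h | h
  · exact S_of_neg h
  · rw [h, S_zero]

/-! ### Functional equation -/

open MeasureTheory intervalIntegral

theorem S_intervalIntegrable (a b : ℝ) : IntervalIntegrable S volume a b :=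
  S_continuous.intervalIntegrable a b

theorem riemann_step (c h : ℝ) (hh : 0 ≤ h) :
    |(∫ v in (c - h)..c, S v) - h * S c| ≤ 2 * h * h := by
  have h1 : (∫ v in (c - h)..c, S v) - h * S c = ∫ v in (c - h)..c, (S v - S c) := by
    rw [intervalIntegral.integral_sub (S_intervalIntegrable _ _) (by simp)]
    simp
  rw [h1]
  have h2 : ∀ v ∈ Set.uIoc (c - h) c, ‖S v - S c‖ ≤ 2 * h := by
    intro v hv
    rw [Set.uIoc_of_le (by linarith)] at hv
    rw [Real.norm_eq_abs]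
    refine (abs_S_sub_le c v).trans ?_
    have : |v - c| ≤ h := abs_le.2 ⟨by linarith [hv.1], by linarith [hv.2]⟩
    linarith
  have h3 := intervalIntegral.norm_integral_le_of_norm_le_const h2
  rw [Real.norm_eq_abs] at h3
  refine h3.trans ?_
  rw [show c - (c - h) = h by ring, abs_of_nonneg hh]

theorem riemann_sum (c : ℝ) (M : ℕ) :
    |(∫ v in (c - 1)..c, S v) - (1 / 2 ^ M) * ∑ j ∈ range (2 ^ M), S (c - j / 2 ^ M)| ≤
      2 / 2 ^ M := by
  have hsum : ∀ n : ℕ, ∑ j ∈ range n, ∫ v in (c - ((j : ℝ) + 1) / 2 ^ M)..(c - (j : ℝ) / 2 ^ M), S v =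
      ∫ v in (c - (n : ℝ) / 2 ^ M)..c, S v := by
    intro n
    induction n with
    | zero => simp
    | succ n ih =>
      rw [Finset.sum_range_succ, ih, add_comm]
      rw [intervalIntegral.integral_add_adjacent_intervals (S_intervalIntegrable _ _)
        (S_intervalIntegrable _ _)]
      push_cast
      rfl
  have h1 := hsum (2 ^ M)
  have hp : (0 : ℝ) < 2 ^ M := by positivity
  rw [show ((2 ^ M : ℕ) : ℝ) / 2 ^ M = 1 by push_cast; exact div_self hp.ne'] at h1
  rw [← h1, Finset.mul_sum, ← Finset.sum_sub_distrib]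
  refine (Finset.abs_sum_le_sum_abs _ _).trans ?_
  have h2 : ∀ j ∈ range (2 ^ M),
      |(∫ v in (c - ((j : ℝ) + 1) / 2 ^ M)..(c - (j : ℝ) / 2 ^ M), S v) -
        1 / 2 ^ M * S (c - j / 2 ^ M)| ≤ 2 * (1 / 2 ^ M) * (1 / 2 ^ M) := by
    intro j _
    have h3 := riemann_step (c - (j : ℝ) / 2 ^ M) (1 / 2 ^ M) (by positivity)
    rw [show c - (j : ℝ) / 2 ^ M - 1 / 2 ^ M = c - ((j : ℝ) + 1) / 2 ^ M by ring] at h3
    exact h3
  refine (Finset.sum_le_sum h2).trans ?_
  rw [Finset.sum_const, Finset.card_range, nsmul_eq_mul]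
  push_cast
  apply le_of_eq
  field_simp

theorem S_eq_integral (x : ℝ) : S x = ∫ v in (2 * x - 1)..(2 * x), S v := by
  have h1 : ∀ M : ℕ, |A (M + 1) x - ∫ v in (2 * x - 1)..(2 * x), S v| ≤
      4 * (M + 1) / 2 ^ M + 2 / 2 ^ M := by
    intro M
    have h2 := riemann_sum (2 * x) M
    have h3 : |A (M + 1) x - (1 / 2 ^ M) * ∑ j ∈ range (2 ^ M), S (2 * x - j / 2 ^ M)| ≤
        4 * (M + 1) / 2 ^ M := by
      rw [A_succ, ← mul_sub, ← Finset.sum_sub_distrib, abs_mul, abs_of_pos (by positivity : (0 : ℝ) < 1 / 2 ^ M)]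
      calc (1 / 2 ^ M : ℝ) * |∑ j ∈ range (2 ^ M), (A M (2 * x - j / 2 ^ M) - S (2 * x - j / 2 ^ M))|
          ≤ (1 / 2 ^ M : ℝ) * ∑ j ∈ range (2 ^ M), (4 * ((M : ℝ) + 1) / 2 ^ M) := by
            apply mul_le_mul_of_nonneg_left _ (by positivity)
            refine (Finset.abs_sum_le_sum_abs _ _).trans (Finset.sum_le_sum fun j _ => ?_)
            rw [abs_sub_comm]
            exact abs_A_sub_S M _
        _ = 4 * (M + 1) / 2 ^ M := by
            rw [Finset.sum_const, Finset.card_range, nsmul_eq_mul]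
            push_cast
            field_simp
    have h4 : A (M + 1) x - ∫ v in (2 * x - 1)..(2 * x), S v =
        (A (M + 1) x - (1 / 2 ^ M) * ∑ j ∈ range (2 ^ M), S (2 * x - j / 2 ^ M)) -
        ((∫ v in (2 * x - 1)..(2 * x), S v) -
          (1 / 2 ^ M) * ∑ j ∈ range (2 ^ M), S (2 * x - j / 2 ^ M)) := by ring
    rw [h4]
    refine (abs_sub _ _).trans ?_
    linarith
  have h5 : Filter.Tendsto (fun M : ℕ => |A (M + 1) x - ∫ v in (2 * x - 1)..(2 * x), S v|)
      Filter.atTop (nhds |S x - ∫ v in (2 * x - 1)..(2 * x), S v|) :=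
    (((Filter.tendsto_add_atTop_iff_nat 1).2 (tendsto_A x)).sub_const _).abs
  have h6 : Filter.Tendsto (fun M : ℕ => 4 * ((M : ℝ) + 1) / 2 ^ M + 2 / 2 ^ M)
      Filter.atTop (nhds 0) := by
    have e1 := tendsto_pow_const_mul_const_pow_of_abs_lt_one 1 (r := (1 / 2 : ℝ))
      (by rw [abs_of_pos] <;> norm_num)
    have e2 := tendsto_two_div_pow
    have e3 := (e1.const_mul 4).add (e2.const_mul 3)
    rw [mul_zero, mul_zero, add_zero] at e3
    refine e3.congr fun M => ?_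
    rw [one_div, inv_pow]
    ring
  have h7 : |S x - ∫ v in (2 * x - 1)..(2 * x), S v| ≤ 0 :=
    le_of_tendsto_of_tendsto' h5 h6 h1
  have h8 := abs_nonpos_iff.1 h7
  linarith

theorem hasDerivAt_S (x : ℝ) : HasDerivAt S (2 * S (2 * x) - 2 * S (2 * x - 1)) x := by
  have h1 : ∀ y : ℝ, S y = (∫ v in (0 : ℝ)..(2 * y), S v) - ∫ v in (0 : ℝ)..(2 * y - 1), S v := by
    intro y
    conv_lhs => rw [S_eq_integral y]
    rw [intervalIntegral.integral_interval_sub_left (S_intervalIntegrable _ _)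
      (S_intervalIntegrable _ _)]
  have h2 : ∀ z : ℝ, HasDerivAt (fun u => ∫ v in (0 : ℝ)..u, S v) (S z) z := fun z =>
    intervalIntegral.integral_hasDerivAt_right (S_intervalIntegrable _ _)
      (S_continuous.stronglyMeasurableAtFilter _ _) S_continuous.continuousAt
  have h3 : HasDerivAt (fun y : ℝ => 2 * y) 2 x := by
    simpa using (hasDerivAt_id x).const_mul (2 : ℝ)
  have h4 : HasDerivAt (fun y : ℝ => 2 * y - 1) 2 x := h3.sub_const 1
  have h5 := ((h2 (2 * x)).comp x h3).sub ((h2 (2 * x - 1)).comp x h4)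
  exact (h5.congr_of_eventuallyEq (Filter.Eventually.of_forall h1)).congr_deriv (by ring)

theorem deriv_S : deriv S = fun x => 2 * S (2 * x) - 2 * S (2 * x - 1) :=
  funext fun x => (hasDerivAt_S x).deriv

theorem S_contDiff_nat (n : ℕ) : ContDiff ℝ n S := by
  induction n with
  | zero => exact contDiff_zero.2 S_continuous
  | succ n ih =>
    push_cast
    rw [contDiff_succ_iff_deriv]
    refine ⟨fun x => (hasDerivAt_S x).differentiableAt, by simp, ?_⟩
    rw [deriv_S]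
    have h1 : ContDiff ℝ n (fun x : ℝ => S (2 * x)) :=
      ih.comp (contDiff_const.mul contDiff_id)
    have h2 : ContDiff ℝ n (fun x : ℝ => S (2 * x - 1)) :=
      ih.comp ((contDiff_const.mul contDiff_id).sub contDiff_const)
    exact (contDiff_const.mul h1).sub (contDiff_const.mul h2)

theorem S_contDiff : ContDiff ℝ (⊤ : ℕ∞) S := contDiff_infty.2 S_contDiff_nat

end Crest.Agent.H27
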