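import Crest.Agent.H27.PReal
import Crest.Agent.H27.Fabius

/-!
Primitive recursive approximations of the Fabius step function and all its derivatives at rational
points.
-/

set_option autoImplicit false

namespace Crest.Agent.H27

open Finset

/-- `A M (i / 2^M)` as a rational number. -/
def Aq : ℕ → ℕ → ℚ
  | 0, _ => 1
  | M + 1, i => (1 / 2 ^ M) *
      ((List.range (2 ^ M)).map (fun j => if j ≤ i then Aq M (i - j) else 0)).sum

theorem Aq_cast (M i : ℕ) : ((Aq M i : ℚ) : ℝ) = A M (i / 2 ^ M) := by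
  induction M generalizing i with
  | zero =>
    rw [A_zero, if_pos (by positivity), Aq]; norm_num
  | succ M ih =>
    rw [A_succ, Aq, Rat.cast_mul]
    congr 1
    · push_cast; rfl
    · rw [Finset.sum_range, ← List.sum_ofFn]
      have e : (List.range (2 ^ M)).map (fun j => if j ≤ i then Aq M (i - j) else 0) =
          List.ofFn (fun j : Fin (2 ^ M) => if (j : ℕ) ≤ i then Aq M (i - j) else 0) := by
        apply List.ext_getElem
        · simp
        · intro k h1 h2; simp
      rw [e, List.sum_ofFn, List.sum_ofFn]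
      push_cast
      apply Finset.sum_congr rfl
      intro j _
      have hp : (0 : ℝ) < 2 ^ M := by positivity
      split_ifs with h
      · rw [ih]
        congr 1
        rw [Nat.cast_sub h, pow_succ]
        field_simp
      · rw [A_of_neg]
        · simp
        push Not at h
        have h' : (i : ℝ) < (j : ℕ) := by exact_mod_cast h
        have e2 : 2 * ((i : ℝ) / 2 ^ (M + 1)) - ((j : ℕ) : ℝ) / 2 ^ M = ((i : ℝ) - (j : ℕ)) / 2 ^ M := by
          rw [pow_succ]; field_simp
        rw [e2]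
        exact div_neg_of_neg_of_pos (by linarith) hp

/-- One row update. -/
def nextRow (K M : ℕ) (l : List ℚ) : List ℚ :=
  (List.range K).map (fun i => (1 / 2 ^ M) *
      ((List.range (2 ^ M)).map (fun j => if j ≤ i then l.getD (i - j) 0 else 0)).sum)

/-- Row `M` of length `K`. -/
def rowQ (K : ℕ) : ℕ → List ℚ
  | 0 => (List.range K).map (fun _ => 1)
  | M + 1 => nextRow K M (rowQ K M)

theorem rowQ_eq (K M : ℕ) : rowQ K M = (List.range K).map (Aq M) := by
  induction M with
  | zero => rfl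
  | succ M ih =>
    rw [rowQ, ih, nextRow]
    apply List.map_congr_left
    intro i hi
    rw [Aq]
    congr 2
    apply List.map_congr_left
    intro j _
    split_ifs with h
    · have hi' : i < K := List.mem_range.1 hi
      rw [List.getD_eq_getElem?_getD, List.getElem?_map, List.getElem?_range (by omega)]
      rfl
    · rfl

theorem primrec_pow_two : Primrec (fun M : ℕ => 2 ^ M) := by
  have h : Primrec₂ (fun a b : ℕ => a ^ b) :=
    (Primrec₂.unpaired'.1 Nat.Primrec.pow)
  exact h.comp (Primrec.const 2) Primrec.id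

theorem primrec_nat_pow : Primrec₂ (fun a b : ℕ => a ^ b) :=
  (Primrec₂.unpaired'.1 Nat.Primrec.pow)

theorem primrec_nextRow : Primrec (fun p : ℕ × ℕ × List ℚ => nextRow p.1 p.2.1 p.2.2) := by
  unfold nextRow
  refine Primrec.list_map (Primrec.list_range.comp Primrec.fst) ?_
  refine primrec_rat_mul.comp ?_ ?_
  · exact primrec_rat_div.comp (Primrec.const 1) (primrec_rat_pow.comp (Primrec.const 2)
      (Primrec.fst.comp (Primrec.snd.comp Primrec.fst)))
  · refine primrec_list_sum_rat.comp (Primrec.list_map ?_ ?_)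
    · exact Primrec.list_range.comp (primrec_pow_two.comp
        (Primrec.fst.comp (Primrec.snd.comp Primrec.fst)))
    · refine Primrec.ite (PrimrecRel.comp Primrec.nat_le Primrec.snd (Primrec.snd.comp Primrec.fst))
        ?_ (Primrec.const 0)
      exact (Primrec.list_getD 0).comp
        (Primrec.snd.comp (Primrec.snd.comp (Primrec.fst.comp Primrec.fst)))
        (Primrec.nat_sub.comp (Primrec.snd.comp Primrec.fst) Primrec.snd)

theorem primrec_rowQ : Primrec₂ rowQ := by
  have h : Primrec₂ (fun K M : ℕ => (Nat.rec ((List.range K).map (fun _ => (1 : ℚ)))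
      (fun M l => nextRow K M l) M : List ℚ)) :=
    Primrec.nat_rec (f := fun K : ℕ => (List.range K).map (fun _ => (1 : ℚ)))
      (g := fun (K : ℕ) (p : ℕ × List ℚ) => nextRow K p.1 p.2)
      (Primrec.list_map Primrec.list_range (Primrec.const 1).to₂)
      (primrec_nextRow.comp (Primrec.pair Primrec.fst
        (Primrec.pair (Primrec.fst.comp Primrec.snd) (Primrec.snd.comp Primrec.snd))))
  refine h.of_eq fun K M => ?_
  induction M with
  | zero => rfl
  | succ M ih => simp only [rowQ]; rw [← ih]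

theorem primrec_Aq : Primrec₂ Aq := by
  have h : Primrec₂ (fun M i : ℕ => (rowQ (i + 1) M).getD i 0) :=
    (Primrec.list_getD 0).comp
      (primrec_rowQ.comp (Primrec.succ.comp Primrec.snd) Primrec.fst) Primrec.snd
  refine h.of_eq fun M i => ?_
  rw [rowQ_eq, List.getD_eq_getElem?_getD, List.getElem?_map, List.getElem?_range (by omega)]
  rfl

theorem prec_bound (n : ℕ) : (4 * (2 * n + 10) + 6) * (n + 1) ≤ 2 ^ (2 * n + 10) := by
  have h : n + 1 ≤ 2 ^ n := Nat.lt_two_pow_self
  have e : 2 ^ (2 * n + 10) = 1024 * (2 ^ n * 2 ^ n) := by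
    rw [pow_add, two_mul, pow_add]; norm_num; ring
  rw [e]
  have h1 : (4 * (2 * n + 10) + 6) * (n + 1) ≤ 46 * ((n + 1) * (n + 1)) := by nlinarith
  have h2 : (n + 1) * (n + 1) ≤ 2 ^ n * 2 ^ n := Nat.mul_le_mul h h
  omega

theorem preal_S : PReal (fun q : ℚ => S q) := by
  refine ⟨fun q n => Aq (2 * n + 10) ⌊q * 2 ^ (2 * n + 10)⌋₊, ?_, fun q n => ?_⟩
  · have hM : Primrec₂ (fun (_ : ℚ) (n : ℕ) => 2 * n + 10) :=
      Primrec.nat_add.comp (Primrec.nat_mul.comp (Primrec.const 2) Primrec.snd) (Primrec.const 10)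
    exact primrec_Aq.comp hM (primrec_rat_natFloor.comp (primrec_rat_mul.comp Primrec.fst
      (primrec_rat_pow.comp (Primrec.const 2) hM)))
  · rw [Aq_cast]
    set M := 2 * n + 10 with hM
    set i := ⌊q * 2 ^ M⌋₊ with hi
    have hp : (0 : ℝ) < 2 ^ M := by positivity
    have hpq : (0 : ℚ) < 2 ^ M := by positivity
    have h1 : |S q - S (i / 2 ^ M)| ≤ 2 / 2 ^ M := by
      rcases le_total 0 q with h0 | h0
      · have h2 : (i : ℚ) ≤ q * 2 ^ M := Nat.floor_le (by positivity)
        have h3 : q * 2 ^ M < (i : ℚ) + 1 := Nat.lt_floor_add_one _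
        have h2' : (i : ℝ) ≤ q * 2 ^ M := by exact_mod_cast h2
        have h3' : (q : ℝ) * 2 ^ M < (i : ℝ) + 1 := by exact_mod_cast h3
        refine (abs_S_sub_le _ _).trans ?_
        have h4 : |(q : ℝ) - i / 2 ^ M| ≤ 1 / 2 ^ M := by
          rw [abs_le]
          constructor
          · have : (i : ℝ) / 2 ^ M ≤ q := by rw [div_le_iff₀ hp]; exact h2'
            have : (0 : ℝ) ≤ 1 / 2 ^ M := by positivity
            linarith
          · have : (q : ℝ) ≤ ((i : ℝ) + 1) / 2 ^ M := by rw [le_div_iff₀ hp]; exact h3'.le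
            rw [add_div] at this
            linarith
        calc 2 * |(q : ℝ) - i / 2 ^ M| ≤ 2 * (1 / 2 ^ M) := by linarith
          _ = 2 / 2 ^ M := by ring
      · have hi0 : i = 0 := by
          rw [hi]; exact Nat.floor_of_nonpos (mul_nonpos_of_nonpos_of_nonneg h0 hpq.le)
        have h0' : (q : ℝ) ≤ 0 := by exact_mod_cast h0
        rw [hi0, S_of_nonpos h0']
        simp only [Nat.cast_zero, zero_div, S_zero, sub_self, abs_zero]
        positivity
    have h2 := abs_A_sub_S M ((i : ℝ) / 2 ^ M)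
    have h3 : |S q - A M (i / 2 ^ M)| ≤ 2 / 2 ^ M + 4 * (M + 1) / 2 ^ M := by
      calc |S q - A M (i / 2 ^ M)| = |(S q - S (i / 2 ^ M)) + (S (i / 2 ^ M) - A M (i / 2 ^ M))| := by
            congr 1; ring
        _ ≤ _ := (abs_add_le _ _).trans (add_le_add h1 h2)
    refine h3.trans ?_
    rw [← add_div, div_le_div_iff₀ hp (by positivity)]
    have h4 : ((4 * (2 * n + 10) + 6) * (n + 1) : ℝ) ≤ 2 ^ (2 * n + 10) := by
      exact_mod_cast prec_bound n
    rw [one_mul, hM]
    push_cast
    push_cast at h4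
    linarith

/-! ### Derivatives -/

/-- Signs and shifts in the `k`-th derivative. -/
def L : ℕ → List (ℤ × ℕ)
  | 0 => [(1, 0)]
  | k + 1 => (L k).flatMap (fun p => [(p.1, 2 * p.2), (-p.1, 2 * p.2 + 1)])

theorem primrec_L : Primrec L := by
  have h : Primrec (fun k : ℕ => (Nat.rec ([(1, 0)] : List (ℤ × ℕ))
      (fun _ l => l.flatMap (fun p => [(p.1, 2 * p.2), (-p.1, 2 * p.2 + 1)])) k : List (ℤ × ℕ))) := by
    refine Primrec.nat_rec₁ (f := fun _ (l : List (ℤ × ℕ)) =>
      l.flatMap (fun p => [(p.1, 2 * p.2), (-p.1, 2 * p.2 + 1)])) [(1, 0)] ?_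
    refine Primrec.list_flatMap Primrec.snd ?_
    refine Primrec.list_cons.comp ?_ (Primrec.list_cons.comp ?_ (Primrec.const []))
    · exact Primrec.pair (Primrec.fst.comp Primrec.snd)
        (Primrec.nat_double.comp (Primrec.snd.comp Primrec.snd))
    · exact Primrec.pair (primrec_int_neg.comp (Primrec.fst.comp Primrec.snd))
        (Primrec.nat_double_succ.comp (Primrec.snd.comp Primrec.snd))
  refine h.of_eq fun k => ?_
  induction k with
  | zero => rfl
  | succ k ih => simp only [L]; rw [← ih]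

theorem L_length (k : ℕ) : (L k).length = 2 ^ k := by
  induction k with
  | zero => rfl
  | succ k ih =>
    rw [L, List.length_flatMap]
    simp [ih, pow_succ]

theorem L_abs (k : ℕ) : ∀ p ∈ L k, |(p.1 : ℝ)| = 1 := by
  induction k with
  | zero => intro p hp; simp [L] at hp; rw [hp]; simp
  | succ k ih =>
    intro p hp
    rw [L, List.mem_flatMap] at hp
    obtain ⟨q, hq, hpq⟩ := hp
    simp only [List.mem_cons, List.not_mem_nil, or_false] at hpq
    rcases hpq with h | h
    · rw [h]; exact ih q hq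
    · rw [h]; simp only [Int.cast_neg, abs_neg]; exact ih q hq

theorem hasDerivAt_S_comp (c d x : ℝ) :
    HasDerivAt (fun y => S (c * y - d)) (c * (2 * S (2 * (c * x - d)) - 2 * S (2 * (c * x - d) - 1))) x := by
  have h1 : HasDerivAt (fun y : ℝ => c * y - d) c x := by
    simpa using ((hasDerivAt_id x).const_mul c).sub_const d
  have h2 := (hasDerivAt_S (c * x - d)).comp x h1
  refine h2.congr_deriv ?_
  ring

theorem hasDerivAt_sumList (l : List (ℤ × ℕ)) (k : ℕ) (x : ℝ) :
    HasDerivAt (fun y => (l.map (fun p : ℤ × ℕ => (p.1 : ℝ) * S (2 ^ k * y - p.2))).sum)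
      (2 ^ (k + 1) * ((l.flatMap (fun p : ℤ × ℕ => [(p.1, 2 * p.2), (-p.1, 2 * p.2 + 1)])).map
        (fun p : ℤ × ℕ => (p.1 : ℝ) * S (2 ^ (k + 1) * x - p.2))).sum) x := by
  induction l with
  | nil => simpa using hasDerivAt_const x (0 : ℝ)
  | cons p l ih =>
    simp only [List.map_cons, List.sum_cons, List.flatMap_cons, List.map_append, List.sum_append]
    have h1 := (hasDerivAt_S_comp (2 ^ k) p.2 x).const_mul (p.1 : ℝ)
    refine (h1.add ih).congr_deriv ?_
    simp only [List.map_nil, List.sum_nil]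
    have e1 : 2 * ((2 : ℝ) ^ k * x - p.2) = 2 ^ (k + 1) * x - ((2 * p.2 : ℕ) : ℝ) := by
      push_cast; rw [pow_succ]; ring
    have e2 : 2 * ((2 : ℝ) ^ k * x - p.2) - 1 = 2 ^ (k + 1) * x - ((2 * p.2 + 1 : ℕ) : ℝ) := by
      push_cast; rw [pow_succ]; ring
    rw [e2, e1]
    push_cast
    rw [pow_succ]
    ring

/-- The scale factor in the `k`-th derivative. -/
def cS : ℕ → ℕ
  | 0 => 1
  | k + 1 => cS k * 2 ^ (k + 1)

theorem primrec_cS : Primrec cS := by
  have h : Primrec (fun k : ℕ => (Nat.rec (1 : ℕ) (fun k c => c * 2 ^ (k + 1)) k : ℕ)) :=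
    Primrec.nat_rec₁ (f := fun k c => c * 2 ^ (k + 1)) 1
      (Primrec.nat_mul.comp Primrec.snd (primrec_pow_two.comp (Primrec.succ.comp Primrec.fst)))
  refine h.of_eq fun k => ?_
  induction k with
  | zero => rfl
  | succ k ih => simp only [cS]; rw [← ih]

theorem iteratedDeriv_S (k : ℕ) (x : ℝ) : iteratedDeriv k S x =
    cS k * ((L k).map (fun p : ℤ × ℕ => (p.1 : ℝ) * S (2 ^ k * x - p.2))).sum := by
  induction k generalizing x with
  | zero => simp [L, cS]
  | succ k ih =>
    rw [iteratedDeriv_succ]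
    have h : iteratedDeriv k S = fun y =>
      (cS k : ℝ) * ((L k).map (fun p : ℤ × ℕ => (p.1 : ℝ) * S (2 ^ k * y - p.2))).sum := funext ih
    rw [h]
    rw [((hasDerivAt_sumList (L k) k x).const_mul (cS k : ℝ)).deriv, L, cS]
    push_cast
    ring

theorem preal_iteratedDeriv_S : PReal (fun p : ℕ × ℚ => iteratedDeriv p.1 S p.2) := by
  have h1 : PReal (fun p : ℕ × ℚ =>
      ((L p.1).map (fun q : ℤ × ℕ => (q.1 : ℝ) * S (2 ^ p.1 * p.2 - q.2))).sum) := by
    refine PReal.listSum (g := fun (p : ℕ × ℚ) (q : ℤ × ℕ) => (q.1 : ℝ) * S (2 ^ p.1 * p.2 - q.2))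
      ?_ (primrec_L.comp Primrec.fst)
    refine PReal.mul (PReal.ofInt (Primrec.fst.comp Primrec.snd)) ?_
    have h2 : Primrec (fun r : (ℕ × ℚ) × (ℤ × ℕ) => (2 : ℚ) ^ r.1.1 * r.1.2 - (r.2.2 : ℚ)) :=
      primrec_rat_sub.comp
        (primrec_rat_mul.comp
          (primrec_rat_pow.comp (Primrec.const 2) (Primrec.fst.comp Primrec.fst))
          (Primrec.snd.comp Primrec.fst))
        (primrec_rat_natCast.comp (Primrec.snd.comp Primrec.snd))
    exact (preal_S.comp h2).of_eq fun r => by push_cast; rfl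
  exact ((PReal.ofNat (primrec_cS.comp Primrec.fst)).mul h1).of_eq fun p =>
    (iteratedDeriv_S p.1 p.2).symm

theorem abs_iteratedDeriv_S_le (k : ℕ) (x : ℝ) : |iteratedDeriv k S x| ≤ ((cS k * 2 ^ k : ℕ) : ℝ) := by
  rw [iteratedDeriv_S, abs_mul, Nat.abs_cast, Nat.cast_mul]
  apply mul_le_mul_of_nonneg_left _ (Nat.cast_nonneg _)
  rw [← L_length]
  have key : ∀ l : List (ℤ × ℕ), (∀ p ∈ l, |(p.1 : ℝ)| = 1) →
      |(l.map (fun p : ℤ × ℕ => (p.1 : ℝ) * S (2 ^ k * x - p.2))).sum| ≤ (l.length : ℝ) := by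
    intro l
    induction l with
    | nil => intro _; simp
    | cons p l ih =>
      intro hl
      simp only [List.map_cons, List.sum_cons, List.length_cons]
      refine (abs_add_le _ _).trans ?_
      rw [abs_mul, hl p (by simp), one_mul]
      have h1 := ih (fun q hq => hl q (by simp [hq]))
      have h2 := abs_S_le_one (2 ^ k * x - p.2)
      push_cast
      linarith
  exact key (L k) (L_abs k)

/-! ### Nice functions of one variable -/

/-- Smooth functions with primitive recursive approximations and bounds of all derivatives. -/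
structure Nice (f : ℝ → ℝ) : Prop where
  smooth : ContDiff ℝ (⊤ : ℕ∞) f
  comp : PReal (fun p : ℕ × ℚ => iteratedDeriv p.1 f p.2)
  bdd : ∃ B : ℕ → ℕ, Primrec B ∧ ∀ k x, |iteratedDeriv k f x| ≤ B k

theorem nice_S : Nice S where
  smooth := S_contDiff
  comp := preal_iteratedDeriv_S
  bdd := ⟨fun k => cS k * 2 ^ k, Primrec.nat_mul.comp primrec_cS primrec_pow_two,
    abs_iteratedDeriv_S_le⟩

end Crest.Agent.H27
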