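import Crest.Agent.H27.Nice
import Crest.Prelude.Def_BoxFlow

/-!
Space-time fields with effective derivatives, in tensor form.
-/

set_option autoImplicit false

namespace Crest.Agent.H27

open Crest.AnalysisR.BoxFlow

/-- Smooth fields whose mixed derivatives are primitive-recursively approximable and bounded. -/
structure NiceField (U : Field) : Prop where
  smooth : ContDiff ℝ (⊤ : ℕ∞) U
  comp : ∀ j, PReal (fun p : List (Fin 4) × (ℚ × (Fin 3 → ℚ)) =>
     mixedDeriv p.1 U ((p.2.1 : ℝ), ratPoint p.2.2) j)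
  bdd : ∃ B : List (Fin 4) → ℕ, Primrec B ∧ ∀ ds p j, |mixedDeriv ds U p j| ≤ B ds

theorem NiceField.effective {U : Field} (hU : NiceField U) : Effective U := by
  choose A hA hA' using hU.comp
  obtain ⟨B, hB, hB'⟩ := hU.bdd
  refine ⟨fun p => fun j => A j (p.1, p.2.1) p.2.2, B, ?_, hB.to_comp, ?_, hB'⟩
  · apply Primrec.to_comp
    apply Primrec.fin_curry.2
    apply Primrec₂.swap (f := fun (j : Fin 3) (p : List (Fin 4) × (ℚ × (Fin 3 → ℚ)) × ℕ) =>
      A j (p.1, p.2.1) p.2.2)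
    apply Primrec.fin_curry₁.2
    intro j
    exact (hA j).comp (Primrec.pair Primrec.fst (Primrec.fst.comp Primrec.snd))
      (Primrec.snd.comp Primrec.snd)
  · intro ds t q n j
    exact hA' j (ds, (t, q)) n

theorem mixedDeriv_smooth {U : Field} (hU : ContDiff ℝ (⊤ : ℕ∞) U) (ds : List (Fin 4)) :
    ContDiff ℝ (⊤ : ℕ∞) (mixedDeriv ds U) := by
  induction ds with
  | nil => exact hU
  | cons d ds ih =>
    have h : ContDiff ℝ (⊤ : ℕ∞) (fderiv ℝ (mixedDeriv ds U)) := by
      apply ih.fderiv_right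
      simp
    exact h.clm_apply contDiff_const

theorem mixedDeriv_add {U V : Field} (hU : ContDiff ℝ (⊤ : ℕ∞) U) (hV : ContDiff ℝ (⊤ : ℕ∞) V)
    (ds : List (Fin 4)) (p : ℝ × (Fin 3 → ℝ)) :
    mixedDeriv ds (fun p => U p + V p) p = mixedDeriv ds U p + mixedDeriv ds V p := by
  induction ds generalizing p with
  | nil => rfl
  | cons d ds ih =>
    have h : mixedDeriv ds (fun p => U p + V p) = fun p => mixedDeriv ds U p + mixedDeriv ds V p :=
      funext ih
    simp only [mixedDeriv]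
    rw [h]
    have h1 : DifferentiableAt ℝ (mixedDeriv ds U) p :=
      ((mixedDeriv_smooth hU ds).differentiable (by simp)).differentiableAt
    have h2 : DifferentiableAt ℝ (mixedDeriv ds V) p :=
      ((mixedDeriv_smooth hV ds).differentiable (by simp)).differentiableAt
    have h3 : fderiv ℝ (fun p => mixedDeriv ds U p + mixedDeriv ds V p) p =
      fderiv ℝ (mixedDeriv ds U) p + fderiv ℝ (mixedDeriv ds V) p := fderiv_add h1 h2
    rw [h3]
    rfl

theorem mixedDeriv_zero (ds : List (Fin 4)) (p : ℝ × (Fin 3 → ℝ)) :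
    mixedDeriv ds (fun _ => 0) p = 0 := by
  induction ds generalizing p with
  | nil => rfl
  | cons d ds ih =>
    have h : mixedDeriv ds (fun _ => (0 : Fin 3 → ℝ)) = fun _ => 0 := funext ih
    simp only [mixedDeriv]
    rw [h]
    simp

theorem NiceField.add {U V : Field} (hU : NiceField U) (hV : NiceField V) :
    NiceField (fun p => U p + V p) where
  smooth := hU.smooth.add hV.smooth
  comp := fun j => ((hU.comp j).add (hV.comp j)).of_eq fun p => by
    rw [mixedDeriv_add hU.smooth hV.smooth]; rfl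
  bdd := by
    obtain ⟨B, hB, hB'⟩ := hU.bdd
    obtain ⟨C, hC, hC'⟩ := hV.bdd
    refine ⟨fun k => B k + C k, Primrec.nat_add.comp hB hC, fun ds p j => ?_⟩
    rw [mixedDeriv_add hU.smooth hV.smooth]
    push_cast
    exact (abs_add_le _ _).trans (add_le_add (hB' ds p j) (hC' ds p j))

theorem NiceField.zero : NiceField (fun _ => 0) where
  smooth := contDiff_const
  comp := fun j => (PReal.ratConst 0).of_eq fun p => by
    rw [mixedDeriv_zero]; simp
  bdd := ⟨fun _ => 0, Primrec.const 0, fun ds p j => by rw [mixedDeriv_zero]; simp⟩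

/-! ### Tensor fields -/

/-- Product of three one-variable functions. -/
noncomputable def prod3 (f : Fin 3 → ℝ → ℝ) (x : Fin 3 → ℝ) : ℝ := f 0 (x 0) * f 1 (x 1) * f 2 (x 2)

/-- `g(t) f₀(x₀) f₁(x₁) f₂(x₂) e_i`. -/
noncomputable def tens (i : Fin 3) (g : ℝ → ℝ) (f : Fin 3 → ℝ → ℝ) : Field :=
  fun p => (g p.1 * prod3 f p.2) • (Pi.single i (1 : ℝ) : Fin 3 → ℝ)

theorem prod3_smooth {f : Fin 3 → ℝ → ℝ} (hf : ∀ l, ContDiff ℝ (⊤ : ℕ∞) (f l)) :
    ContDiff ℝ (⊤ : ℕ∞) (prod3 f) := by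
  unfold prod3
  have h : ∀ l : Fin 3, ContDiff ℝ (⊤ : ℕ∞) (fun x : Fin 3 → ℝ => f l (x l)) := fun l =>
    (hf l).comp (contDiff_apply ℝ ℝ l)
  exact ((h 0).mul (h 1)).mul (h 2)

theorem tens_smooth (i : Fin 3) {g : ℝ → ℝ} {f : Fin 3 → ℝ → ℝ} (hg : ContDiff ℝ (⊤ : ℕ∞) g)
    (hf : ∀ l, ContDiff ℝ (⊤ : ℕ∞) (f l)) : ContDiff ℝ (⊤ : ℕ∞) (tens i g f) := by
  unfold tens
  exact ((hg.comp contDiff_fst).mul ((prod3_smooth hf).comp contDiff_snd)).smul contDiff_const

theorem hasDerivAt_prod3 {f : Fin 3 → ℝ → ℝ} (hf : ∀ l, ContDiff ℝ (⊤ : ℕ∞) (f l)) (l : Fin 3)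
    (x : Fin 3 → ℝ) :
    HasDerivAt (fun t : ℝ => prod3 f (x + t • (Pi.single l (1 : ℝ) : Fin 3 → ℝ)))
      (prod3 (Function.update f l (deriv (f l))) x) 0 := by
  have hd : ∀ m : Fin 3, HasDerivAt (f m) (deriv (f m) (x m)) (x m) := fun m =>
    (((hf m).differentiable (by simp)) (x m)).hasDerivAt
  have h1 : ∀ m : Fin 3, HasDerivAt (fun t : ℝ => f m (x m + t)) (deriv (f m) (x m)) 0 := by
    intro m
    have h2 : HasDerivAt (fun t : ℝ => x m + t) 1 0 := (hasDerivAt_id (0 : ℝ)).const_add (x m)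
    have h3 : HasDerivAt (f m) (deriv (f m) (x m)) (x m + 0) := by rw [add_zero]; exact hd m
    exact (h3.comp (0 : ℝ) h2).congr_deriv (mul_one _)
  fin_cases l
  · simp only [prod3, Pi.add_apply, Pi.smul_apply, smul_eq_mul]
    have h2 := ((h1 0).mul_const (f 1 (x 1))).mul_const (f 2 (x 2))
    simpa [Function.update] using h2
  · simp only [prod3, Pi.add_apply, Pi.smul_apply, smul_eq_mul]
    have h2 := ((h1 1).const_mul (f 0 (x 0))).mul_const (f 2 (x 2))
    simpa [Function.update] using h2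
  · simp only [prod3, Pi.add_apply, Pi.smul_apply, smul_eq_mul]
    have h2 := ((h1 2).const_mul (f 0 (x 0) * f 1 (x 1)))
    simpa [Function.update] using h2

theorem fderiv_tens_time (i : Fin 3) {g : ℝ → ℝ} {f : Fin 3 → ℝ → ℝ} (hg : ContDiff ℝ (⊤ : ℕ∞) g)
    (hf : ∀ l, ContDiff ℝ (⊤ : ℕ∞) (f l)) (p : ℝ × (Fin 3 → ℝ)) :
    fderiv ℝ (tens i g f) p (1, 0) = tens i (deriv g) f p := by
  have hd : DifferentiableAt ℝ (tens i g f) p :=
    ((tens_smooth i hg hf).differentiable (by simp)).differentiableAt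
  rw [← hd.lineDeriv_eq_fderiv]
  apply HasLineDerivAt.lineDeriv
  unfold HasLineDerivAt tens
  have h1 : HasDerivAt (fun t : ℝ => g (p.1 + t)) (deriv g p.1) 0 := by
    have h2 : HasDerivAt (fun t : ℝ => p.1 + t) 1 0 := (hasDerivAt_id (0 : ℝ)).const_add p.1
    have h3 : HasDerivAt g (deriv g p.1) (p.1 + 0) := by
      rw [add_zero]; exact ((hg.differentiable (by simp)) p.1).hasDerivAt
    exact (h3.comp (0 : ℝ) h2).congr_deriv (mul_one _)
  have h4 := (h1.mul_const (prod3 f p.2)).smul_const (Pi.single i (1 : ℝ) : Fin 3 → ℝ)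
  simpa using h4

theorem fderiv_tens_space (i : Fin 3) {g : ℝ → ℝ} {f : Fin 3 → ℝ → ℝ} (hg : ContDiff ℝ (⊤ : ℕ∞) g)
    (hf : ∀ l, ContDiff ℝ (⊤ : ℕ∞) (f l)) (p : ℝ × (Fin 3 → ℝ)) (l : Fin 3) :
    fderiv ℝ (tens i g f) p (0, Pi.single l 1) = tens i g (Function.update f l (deriv (f l))) p := by
  have hd : DifferentiableAt ℝ (tens i g f) p :=
    ((tens_smooth i hg hf).differentiable (by simp)).differentiableAt
  rw [← hd.lineDeriv_eq_fderiv]
  apply HasLineDerivAt.lineDeriv
  unfold HasLineDerivAt tens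
  have h4 := ((hasDerivAt_prod3 hf l p.2).const_mul (g p.1)).smul_const
    (Pi.single i (1 : ℝ) : Fin 3 → ℝ)
  simpa using h4

theorem direction_zero : direction 0 = (1, 0) := by simp [direction]

theorem direction_succ (l : Fin 3) : direction l.succ = (0, Pi.single l 1) := by
  simp [direction, Fin.succ_ne_zero]

theorem mixedDeriv_tens (i : Fin 3) {g : ℝ → ℝ} {f : Fin 3 → ℝ → ℝ} (hg : ContDiff ℝ (⊤ : ℕ∞) g)
    (hf : ∀ l, ContDiff ℝ (⊤ : ℕ∞) (f l)) (ds : List (Fin 4)) :
    mixedDeriv ds (tens i g f) =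
      tens i (iteratedDeriv (ds.count 0) g) (fun l => iteratedDeriv (ds.count l.succ) (f l)) := by
  induction ds with
  | nil => simp [mixedDeriv]
  | cons d ds ih =>
    simp only [mixedDeriv]
    rw [ih]
    have hg' := Nice.contDiff_iteratedDeriv hg (ds.count 0)
    have hf' : ∀ l : Fin 3, ContDiff ℝ (⊤ : ℕ∞) (iteratedDeriv (ds.count l.succ) (f l)) :=
      fun l => Nice.contDiff_iteratedDeriv (hf l) _
    funext p
    rcases Fin.eq_zero_or_eq_succ d with rfl | ⟨l, rfl⟩
    · rw [direction_zero, fderiv_tens_time i hg' hf']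
      rw [← iteratedDeriv_succ]
      congr 1
      · simp
    · rw [direction_succ, fderiv_tens_space i hg' hf']
      have e1 : List.count 0 (l.succ :: ds) = List.count 0 ds :=
        List.count_cons_of_ne (Fin.succ_ne_zero l)
      rw [e1]
      congr 1
      funext m
      by_cases hm : m = l
      · subst hm
        rw [Function.update_self, ← iteratedDeriv_succ, List.count_cons_self]
      · rw [Function.update_of_ne hm]
        have : (m.succ : Fin 4) ≠ l.succ := fun h => hm (Fin.succ_injective _ h)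
        rw [List.count_cons_of_ne this.symm]

end Crest.Agent.H27
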