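import Crest.Agent.H27.FieldLib

/-!
Good fields: nice, compactly supported, supported in time in `[1/4, 3/4]`, divergence free.
-/

set_option autoImplicit false

namespace Crest.Agent.H27

open Crest.AnalysisR.BoxFlow

theorem primrec_count {n : ℕ} (d : Fin n) : Primrec (fun ds : List (Fin n) => ds.count d) := by
  have h : Primrec (fun ds : List (Fin n) => (ds.filter (fun a => decide (a = d))).length) := by
    refine Primrec.list_length.comp (Primrec.listFilter (p := fun a => a = d) ?_)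
    exact PrimrecRel.comp Primrec.eq Primrec.id (Primrec.const d)
  refine h.of_eq fun ds => ?_
  rw [List.count, List.countP_eq_length_filter]
  rfl

theorem primrec_fin_apply {n : ℕ} {σ : Type*} [Primcodable σ] (l : Fin n) :
    Primrec (fun q : Fin n → σ => q l) :=
  Primrec.fin_app.comp Primrec.id (Primrec.const l)

theorem NiceField.tens (i : Fin 3) {g : ℝ → ℝ} {f : Fin 3 → ℝ → ℝ} (hg : Nice g)
    (hf : ∀ l, Nice (f l)) : NiceField (tens i g f) where
  smooth := tens_smooth i hg.smooth (fun l => (hf l).smooth)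
  comp := fun j => by
    have hg1 : PReal (fun p : List (Fin 4) × (ℚ × (Fin 3 → ℚ)) =>
        iteratedDeriv (p.1.count 0) g p.2.1) :=
      hg.comp.comp (f := fun p : List (Fin 4) × (ℚ × (Fin 3 → ℚ)) => (p.1.count 0, p.2.1))
        (Primrec.pair ((primrec_count 0).comp Primrec.fst) (Primrec.fst.comp Primrec.snd))
    have hf1 : ∀ l : Fin 3, PReal (fun p : List (Fin 4) × (ℚ × (Fin 3 → ℚ)) =>
        iteratedDeriv (p.1.count l.succ) (f l) (p.2.2 l)) := fun l =>
      (hf l).comp.comp (f := fun p : List (Fin 4) × (ℚ × (Fin 3 → ℚ)) =>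
        (p.1.count l.succ, p.2.2 l))
        (Primrec.pair ((primrec_count l.succ).comp Primrec.fst)
          ((primrec_fin_apply l).comp (Primrec.snd.comp Primrec.snd)))
    have h := hg1.mul (((hf1 0).mul (hf1 1)).mul (hf1 2))
    have h2 := h.mul (PReal.ratConst (α := List (Fin 4) × (ℚ × (Fin 3 → ℚ)))
      ((Pi.single i (1 : ℚ) : Fin 3 → ℚ) j))
    refine h2.of_eq fun p => ?_
    rw [mixedDeriv_tens i hg.smooth (fun l => (hf l).smooth)]
    simp only [H27.tens, prod3, Pi.smul_apply, smul_eq_mul, ratPoint]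
    congr 1
    by_cases hij : j = i
    · subst hij; simp
    · simp [Pi.single_eq_of_ne hij]
  bdd := by
    obtain ⟨B, hB, hB'⟩ := hg.bdd
    choose C hC hC' using fun l => (hf l).bdd
    refine ⟨fun ds => B (ds.count 0) * (C 0 (ds.count (Fin.succ 0)) * C 1 (ds.count (Fin.succ 1)) *
      C 2 (ds.count (Fin.succ 2))), ?_, fun ds p j => ?_⟩
    · exact Primrec.nat_mul.comp (hB.comp (primrec_count 0))
        (Primrec.nat_mul.comp (Primrec.nat_mul.comp ((hC 0).comp (primrec_count _))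
          ((hC 1).comp (primrec_count _))) ((hC 2).comp (primrec_count _)))
    · rw [mixedDeriv_tens i hg.smooth (fun l => (hf l).smooth)]
      simp only [H27.tens, prod3, Pi.smul_apply, smul_eq_mul]
      push_cast
      have h1 : |(Pi.single i (1 : ℝ) : Fin 3 → ℝ) j| ≤ 1 := by
        by_cases hij : j = i
        · subst hij; simp
        · simp [Pi.single_eq_of_ne hij]
      rw [abs_mul]
      refine (mul_le_of_le_one_right (abs_nonneg _) h1).trans ?_
      rw [abs_mul, abs_mul, abs_mul]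
      have b0 := hB' (ds.count 0) p.1
      have b1 := hC' 0 (ds.count (Fin.succ 0)) (p.2 0)
      have b2 := hC' 1 (ds.count (Fin.succ 1)) (p.2 1)
      have b3 := hC' 2 (ds.count (Fin.succ 2)) (p.2 2)
      exact mul_le_mul b0 (mul_le_mul (mul_le_mul b1 b2 (abs_nonneg _) (Nat.cast_nonneg _)) b3
        (abs_nonneg _) (by positivity)) (by positivity) (Nat.cast_nonneg _)

/-! ### time rescaling -/

/-- `(t, x) ↦ α U(α t + β, x)`. -/
noncomputable def rescale (α β : ℚ) (U : Field) : Field :=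
  fun p => (α : ℝ) • U ((α : ℝ) * p.1 + β, p.2)

theorem rescale_smooth (α β : ℚ) {U : Field} (hU : ContDiff ℝ (⊤ : ℕ∞) U) :
    ContDiff ℝ (⊤ : ℕ∞) (rescale α β U) := by
  unfold rescale
  have h : ContDiff ℝ (⊤ : ℕ∞) (fun p : ℝ × (Fin 3 → ℝ) => U ((α : ℝ) * p.1 + β, p.2)) :=
    hU.comp (((contDiff_const.mul contDiff_fst).add contDiff_const).prodMk contDiff_snd)
  exact h.const_smul (α : ℝ)

theorem hasFDerivAt_affine (α β : ℝ) (p : ℝ × (Fin 3 → ℝ)) :
    HasFDerivAt (fun p : ℝ × (Fin 3 → ℝ) => (α * p.1 + β, p.2))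
      ((α • ContinuousLinearMap.fst ℝ ℝ (Fin 3 → ℝ)).prod (ContinuousLinearMap.snd ℝ ℝ (Fin 3 → ℝ))) p := by
  have h1 : HasFDerivAt (fun p : ℝ × (Fin 3 → ℝ) => α * p.1 + β)
      (α • ContinuousLinearMap.fst ℝ ℝ (Fin 3 → ℝ)) p :=
    (hasFDerivAt_fst.const_mul α).add_const β
  exact h1.prodMk hasFDerivAt_snd

theorem fderiv_rescale_aux (α β c : ℝ) {V : Field} (hV : ContDiff ℝ (⊤ : ℕ∞) V)
    (p v : ℝ × (Fin 3 → ℝ)) :
    fderiv ℝ (fun p : ℝ × (Fin 3 → ℝ) => c • V (α * p.1 + β, p.2)) p v =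
      c • fderiv ℝ V (α * p.1 + β, p.2) (α * v.1, v.2) := by
  have h1 : HasFDerivAt V (fderiv ℝ V (α * p.1 + β, p.2)) (α * p.1 + β, p.2) :=
    ((hV.differentiable (by simp)).differentiableAt).hasFDerivAt
  have h2 := (h1.comp p (hasFDerivAt_affine α β p)).const_smul c
  have h3 := h2.fderiv
  have h4 : fderiv ℝ (fun p : ℝ × (Fin 3 → ℝ) => c • V (α * p.1 + β, p.2)) p =
      c • (fderiv ℝ V (α * p.1 + β, p.2)).comp ((α • ContinuousLinearMap.fst ℝ ℝ (Fin 3 → ℝ)).prod
        (ContinuousLinearMap.snd ℝ ℝ (Fin 3 → ℝ))) := h3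
  rw [h4]
  simp

theorem mixedDeriv_rescale (α β : ℚ) {U : Field} (hU : ContDiff ℝ (⊤ : ℕ∞) U) (ds : List (Fin 4))
    (p : ℝ × (Fin 3 → ℝ)) :
    mixedDeriv ds (rescale α β U) p =
      ((α : ℝ) ^ (ds.count 0 + 1)) • mixedDeriv ds U ((α : ℝ) * p.1 + β, p.2) := by
  induction ds generalizing p with
  | nil => simp [mixedDeriv, rescale]
  | cons d ds ih =>
    have h : mixedDeriv ds (rescale α β U) =
        fun p => ((α : ℝ) ^ (ds.count 0 + 1)) • mixedDeriv ds U ((α : ℝ) * p.1 + β, p.2) := funext ih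
    simp only [mixedDeriv]
    rw [h, fderiv_rescale_aux _ _ _ (mixedDeriv_smooth hU ds)]
    rcases Fin.eq_zero_or_eq_succ d with rfl | ⟨l, rfl⟩
    · rw [direction_zero, List.count_cons_self]
      have e : ((α : ℝ) * (1 : ℝ), (0 : Fin 3 → ℝ)) = (α : ℝ) • ((1 : ℝ), (0 : Fin 3 → ℝ)) := by
        ext <;> simp
      simp only
      rw [e, map_smul, smul_smul, ← pow_succ]
    · rw [direction_succ, List.count_cons_of_ne (Fin.succ_ne_zero l)]
      simp

theorem NiceField.rescale (α β : ℚ) {U : Field} (hU : NiceField U) :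
    NiceField (rescale α β U) where
  smooth := rescale_smooth α β hU.smooth
  comp := fun j => by
    have h1 : PReal (fun p : List (Fin 4) × (ℚ × (Fin 3 → ℚ)) =>
        mixedDeriv p.1 U (((α * p.2.1 + β : ℚ) : ℝ), ratPoint p.2.2) j) :=
      (hU.comp j).comp (f := fun p : List (Fin 4) × (ℚ × (Fin 3 → ℚ)) =>
          (p.1, (α * p.2.1 + β, p.2.2)))
        (Primrec.pair Primrec.fst (Primrec.pair (primrec_rat_add.comp
          (primrec_rat_mul.comp (Primrec.const α) (Primrec.fst.comp Primrec.snd)) (Primrec.const β))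
          (Primrec.snd.comp Primrec.snd)))
    have h2 : PReal (fun p : List (Fin 4) × (ℚ × (Fin 3 → ℚ)) =>
        ((α ^ (p.1.count 0 + 1) : ℚ) : ℝ)) :=
      PReal.ofRat (primrec_rat_pow.comp (Primrec.const α)
        (Primrec.succ.comp ((primrec_count 0).comp Primrec.fst)))
    refine (h2.mul h1).of_eq fun p => ?_
    rw [mixedDeriv_rescale α β hU.smooth]
    simp only [Pi.smul_apply, smul_eq_mul]
    push_cast; rfl
  bdd := by
    obtain ⟨B, hB, hB'⟩ := hU.bdd
    refine ⟨fun ds => (⌊|α|⌋₊ + 1) ^ (ds.count 0 + 1) * B ds, Primrec.nat_mul.comp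
      (primrec_nat_pow.comp (Primrec.const _) (Primrec.succ.comp (primrec_count 0))) hB,
      fun ds p j => ?_⟩
    rw [mixedDeriv_rescale α β hU.smooth]
    simp only [Pi.smul_apply, smul_eq_mul]
    rw [abs_mul, abs_pow]
    push_cast
    apply mul_le_mul _ (hB' _ _ _) (abs_nonneg _) (by positivity)
    apply pow_le_pow_left₀ (abs_nonneg _)
    have h2 : |α| < (⌊|α|⌋₊ : ℚ) + 1 := Nat.lt_floor_add_one _
    have h3 : ((|α| : ℚ) : ℝ) < (((⌊|α|⌋₊ : ℚ) + 1 : ℚ) : ℝ) := by exact_mod_cast h2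
    push_cast at h3
    exact h3.le

/-! ### Good fields -/

/-- All required properties of a field except the dynamics. -/
structure Good (U : Field) : Prop where
  nice : NiceField U
  cpt : HasCompactSupport U
  time : ∀ p : ℝ × (Fin 3 → ℝ), p.1 ∉ Set.Icc (1 / 4 : ℝ) (3 / 4) → U p = 0
  div : ∀ p : ℝ × (Fin 3 → ℝ), spaceDiv U p = 0

theorem Good.zero : Good (fun _ => 0) where
  nice := NiceField.zero
  cpt := HasCompactSupport.zero
  time := fun _ _ => rfl
  div := fun p => by simp [spaceDiv]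

theorem Good.add {U V : Field} (hU : Good U) (hV : Good V) : Good (fun p => U p + V p) where
  nice := hU.nice.add hV.nice
  cpt := hU.cpt.add hV.cpt
  time := fun p hp => by rw [hU.time p hp, hV.time p hp, add_zero]
  div := fun p => by
    have h1 : DifferentiableAt ℝ U p := (hU.nice.smooth.differentiable (by simp)).differentiableAt
    have h2 : DifferentiableAt ℝ V p := (hV.nice.smooth.differentiable (by simp)).differentiableAt
    have h3 : fderiv ℝ (fun p => U p + V p) p = fderiv ℝ U p + fderiv ℝ V p := fderiv_add h1 h2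
    have e1 := hU.div p
    have e2 := hV.div p
    unfold spaceDiv at *
    rw [h3]
    have h4 : ∀ j : Fin 3, (fderiv ℝ U p + fderiv ℝ V p) (0, Pi.single j 1) j =
        fderiv ℝ U p (0, Pi.single j 1) j + fderiv ℝ V p (0, Pi.single j 1) j := fun _ => rfl
    rw [Finset.sum_congr rfl fun j _ => h4 j, Finset.sum_add_distrib, e1, e2, add_zero]

theorem Good.sum {ι : Type*} (s : Finset ι) {U : ι → Field} (hU : ∀ i ∈ s, Good (U i)) :
    Good (fun p => ∑ i ∈ s, U i p) := by
  classical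
  induction s using Finset.induction_on with
  | empty => simpa using Good.zero
  | insert a s ha ih =>
    have h1 := (hU a (Finset.mem_insert_self a s)).add
      (ih fun i hi => hU i (Finset.mem_insert_of_mem hi))
    have e : (fun p => ∑ i ∈ insert a s, U i p) = fun p => U a p + ∑ i ∈ s, U i p := by
      funext p; rw [Finset.sum_insert ha]
    rw [e]; exact h1

theorem Good.rescale {U : Field} (hU : Good U) (β : ℚ)
    (hβ : ∀ t : ℝ, t ∉ Set.Icc (1 / 4 : ℝ) (3 / 4) → (2 * t + β) ∉ Set.Icc (1 / 4 : ℝ) (3 / 4)) :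
    Good (rescale 2 β U) where
  nice := hU.nice.rescale 2 β
  cpt := by
    have hhom : Topology.IsClosedEmbedding (fun p : ℝ × (Fin 3 → ℝ) => ((2 : ℝ) * p.1 + β, p.2)) := by
      have : (fun p : ℝ × (Fin 3 → ℝ) => ((2 : ℝ) * p.1 + β, p.2)) =
        Prod.map (fun t : ℝ => 2 * t + (β : ℝ)) id := rfl
      rw [this]
      apply Topology.IsClosedEmbedding.prodMap _ Topology.IsClosedEmbedding.id
      exact ((Homeomorph.mulLeft₀ (2 : ℝ) (by norm_num)).trans
        (Homeomorph.addRight (β : ℝ))).isClosedEmbedding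
    have h1 := hU.cpt.comp_isClosedEmbedding hhom
    have h2 := h1.smul_left (f := fun _ : ℝ × (Fin 3 → ℝ) => (2 : ℝ))
    unfold H27.rescale
    have e : (fun p : ℝ × (Fin 3 → ℝ) => ((2 : ℚ) : ℝ) • U (((2 : ℚ) : ℝ) * p.1 + β, p.2)) =
      ((fun _ : ℝ × (Fin 3 → ℝ) => (2 : ℝ)) • (U ∘ fun p : ℝ × (Fin 3 → ℝ) => ((2 : ℝ) * p.1 + β, p.2))) := by
      funext p; simp
    rw [e]; exact h2
  time := fun p hp => by
    unfold H27.rescale
    rw [hU.time]
    · simp
    · have := hβ p.1 hp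
      push_cast
      exact this
  div := fun p => by
    have e1 := hU.div (((2 : ℚ) : ℝ) * p.1 + β, p.2)
    unfold spaceDiv at *
    unfold H27.rescale
    have h : ∀ j : Fin 3, fderiv ℝ (fun p : ℝ × (Fin 3 → ℝ) =>
        ((2 : ℚ) : ℝ) • U (((2 : ℚ) : ℝ) * p.1 + β, p.2)) p (0, Pi.single j 1) j =
        2 * fderiv ℝ U (((2 : ℚ) : ℝ) * p.1 + β, p.2) (0, Pi.single j 1) j := by
      intro j
      rw [fderiv_rescale_aux _ _ _ hU.nice.smooth]
      simp
    rw [Finset.sum_congr rfl fun j _ => h j, ← Finset.mul_sum, e1, mul_zero]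

end Crest.Agent.H27
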