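import Crest.Agent.H27.FabiusComp

/-!
Closure properties of `Nice` functions of one variable, smooth cutoffs.
-/

set_option autoImplicit false

namespace Crest.Agent.H27

theorem Nice.contDiff_nat {f : ℝ → ℝ} (hf : Nice f) (n : ℕ) : ContDiff ℝ n f :=
  contDiff_infty.1 hf.smooth n

theorem Nice.contDiff_iteratedDeriv {f : ℝ → ℝ} (hf : ContDiff ℝ (⊤ : ℕ∞) f) (k : ℕ) :
    ContDiff ℝ (⊤ : ℕ∞) (iteratedDeriv k f) := by
  induction k with
  | zero => rwa [iteratedDeriv_zero]
  | succ k ih =>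
    rw [iteratedDeriv_succ]
    exact (contDiff_infty_iff_deriv.1 ih).2

theorem Nice.hasDerivAt_iteratedDeriv {f : ℝ → ℝ} (hf : ContDiff ℝ (⊤ : ℕ∞) f) (k : ℕ) (x : ℝ) :
    HasDerivAt (iteratedDeriv k f) (iteratedDeriv (k + 1) f x) x := by
  rw [iteratedDeriv_succ]
  exact ((contDiff_infty_iff_deriv.1 (Nice.contDiff_iteratedDeriv hf k)).1 x).hasDerivAt

theorem Nice.zero : Nice (fun _ => 0) where
  smooth := contDiff_const
  comp := (PReal.ratConst 0).of_eq fun p => by simp [iteratedDeriv_fun_const_zero]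
  bdd := ⟨fun _ => 0, Primrec.const 0, fun k x => by simp [iteratedDeriv_fun_const_zero]⟩

theorem Nice.add {f g : ℝ → ℝ} (hf : Nice f) (hg : Nice g) : Nice (fun x => f x + g x) where
  smooth := hf.smooth.add hg.smooth
  comp := (hf.comp.add hg.comp).of_eq fun p =>
    (iteratedDeriv_add (hf.contDiff_nat p.1).contDiffAt (hg.contDiff_nat p.1).contDiffAt).symm
  bdd := by
    obtain ⟨B, hB, hB'⟩ := hf.bdd
    obtain ⟨C, hC, hC'⟩ := hg.bdd
    refine ⟨fun k => B k + C k, Primrec.nat_add.comp hB hC, fun k x => ?_⟩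
    have e : iteratedDeriv k (fun x => f x + g x) x = iteratedDeriv k f x + iteratedDeriv k g x :=
      iteratedDeriv_add (hf.contDiff_nat k).contDiffAt (hg.contDiff_nat k).contDiffAt
    rw [e]
    push_cast
    exact (abs_add_le _ _).trans (add_le_add (hB' k x) (hC' k x))

theorem Nice.const_mul {f : ℝ → ℝ} (hf : Nice f) {c : ℝ} (hc : PReal (fun _ : Unit => c)) :
    Nice (fun x => c * f x) where
  smooth := contDiff_const.mul hf.smooth
  comp := (hc.ofUnit.mul hf.comp).of_eq fun p =>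
    (iteratedDeriv_const_mul c (hf.contDiff_nat p.1).contDiffAt).symm
  bdd := by
    obtain ⟨B, hB, hB'⟩ := hf.bdd
    obtain ⟨K, _, hK'⟩ := hc.exists_bound
    refine ⟨fun k => K () * B k, Primrec.nat_mul.comp (Primrec.const _) hB, fun k x => ?_⟩
    have e : iteratedDeriv k (fun x => c * f x) x = c * iteratedDeriv k f x :=
      iteratedDeriv_const_mul c (hf.contDiff_nat k).contDiffAt
    rw [e, abs_mul]
    push_cast
    exact mul_le_mul (hK' ()) (hB' k x) (abs_nonneg _) (Nat.cast_nonneg _)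

theorem Nice.rat_mul {f : ℝ → ℝ} (hf : Nice f) (c : ℚ) : Nice (fun x => (c : ℝ) * f x) :=
  hf.const_mul (PReal.ratConst c)

theorem Nice.sub {f g : ℝ → ℝ} (hf : Nice f) (hg : Nice g) : Nice (fun x => f x - g x) := by
  have h := hf.add (hg.rat_mul (-1))
  have e : (fun x => f x - g x) = (fun x => f x + ((-1 : ℚ) : ℝ) * g x) := by
    ext x; push_cast; ring
  rw [e]; exact h

theorem Nice.deriv {f : ℝ → ℝ} (hf : Nice f) : Nice (deriv f) where
  smooth := (contDiff_infty_iff_deriv.1 hf.smooth).2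
  comp := (hf.comp.comp (f := fun p : ℕ × ℚ => (p.1 + 1, p.2))
    (Primrec.pair (Primrec.succ.comp Primrec.fst) Primrec.snd)).of_eq fun p => by
      simp only; rw [iteratedDeriv_succ']
  bdd := by
    obtain ⟨B, hB, hB'⟩ := hf.bdd
    refine ⟨fun k => B (k + 1), hB.comp Primrec.succ, fun k x => ?_⟩
    rw [← iteratedDeriv_succ']; exact hB' (k + 1) x

theorem iteratedDeriv_comp_affine {f : ℝ → ℝ} (hf : ContDiff ℝ (⊤ : ℕ∞) f) (k : ℕ) (a b x : ℝ) :
    iteratedDeriv k (fun y => f (a * y + b)) x = a ^ k * iteratedDeriv k f (a * x + b) := by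
  induction k generalizing x with
  | zero => simp
  | succ k ih =>
    rw [iteratedDeriv_succ]
    have h : iteratedDeriv k (fun y => f (a * y + b)) =
      fun x => a ^ k * iteratedDeriv k f (a * x + b) := funext ih
    rw [h]
    have h1 : HasDerivAt (fun y : ℝ => a * y + b) a x := by
      simpa using ((hasDerivAt_id x).const_mul a).add_const b
    have h2 := ((Nice.hasDerivAt_iteratedDeriv hf k (a * x + b)).comp x h1).const_mul (a ^ k)
    have h3 := h2.deriv
    simp only [Function.comp_def] at h3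
    rw [h3]; ring

theorem Nice.comp_affine {f : ℝ → ℝ} (hf : Nice f) (a b : ℚ) :
    Nice (fun x => f ((a : ℝ) * x + (b : ℝ))) where
  smooth := hf.smooth.comp ((contDiff_const.mul contDiff_id).add contDiff_const)
  comp := by
    have h1 : PReal (fun p : ℕ × ℚ => iteratedDeriv p.1 f ((a * p.2 + b : ℚ) : ℝ)) :=
      hf.comp.comp (f := fun p : ℕ × ℚ => (p.1, a * p.2 + b))
        (Primrec.pair Primrec.fst (primrec_rat_add.comp
          (primrec_rat_mul.comp (Primrec.const a) Primrec.snd) (Primrec.const b)))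
    have h2 : PReal (fun p : ℕ × ℚ => ((a ^ p.1 : ℚ) : ℝ)) :=
      PReal.ofRat (primrec_rat_pow.comp (Primrec.const a) Primrec.fst)
    refine (h2.mul h1).of_eq fun p => ?_
    rw [iteratedDeriv_comp_affine hf.smooth]
    push_cast; rfl
  bdd := by
    obtain ⟨B, hB, hB'⟩ := hf.bdd
    refine ⟨fun k => (⌊|a|⌋₊ + 1) ^ k * B k, Primrec.nat_mul.comp (primrec_nat_pow.comp
      (Primrec.const _) Primrec.id) hB, fun k x => ?_⟩
    rw [iteratedDeriv_comp_affine hf.smooth, abs_mul, abs_pow]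
    push_cast
    apply mul_le_mul _ (hB' k _) (abs_nonneg _) (by positivity)
    apply pow_le_pow_left₀ (abs_nonneg _)
    have h2 : |a| < (⌊|a|⌋₊ : ℚ) + 1 := Nat.lt_floor_add_one _
    have h3 : ((|a| : ℚ) : ℝ) < (((⌊|a|⌋₊ : ℚ) + 1 : ℚ) : ℝ) := by exact_mod_cast h2
    push_cast at h3
    exact h3.le

theorem iteratedDeriv_sub_mul {f : ℝ → ℝ} (hf : ContDiff ℝ (⊤ : ℕ∞) f) (k : ℕ) (c x : ℝ) :
    iteratedDeriv k (fun y => (y - c) * f y) x =
      (x - c) * iteratedDeriv k f x + k * iteratedDeriv (k - 1) f x := by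
  induction k generalizing x with
  | zero => simp
  | succ k ih =>
    rw [iteratedDeriv_succ]
    have h : iteratedDeriv k (fun y => (y - c) * f y) =
      fun x => (x - c) * iteratedDeriv k f x + k * iteratedDeriv (k - 1) f x := funext ih
    rw [h]
    have h1 : HasDerivAt (fun y : ℝ => y - c) 1 x := (hasDerivAt_id x).sub_const c
    have h2 := h1.mul (Nice.hasDerivAt_iteratedDeriv hf k x)
    cases k with
    | zero =>
      have h3 := (h2.add ((Nice.hasDerivAt_iteratedDeriv hf (0 - 1) x).const_mul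
        ((0 : ℕ) : ℝ))).deriv
      refine h3.trans ?_
      simp; ring
    | succ k =>
      have h3 := (h2.add ((Nice.hasDerivAt_iteratedDeriv hf (k + 1 - 1) x).const_mul
        ((k + 1 : ℕ) : ℝ))).deriv
      refine h3.trans ?_
      simp only [Nat.add_sub_cancel]
      push_cast
      ring

theorem iteratedDeriv_eq_zero_of_far {f : ℝ → ℝ} {c D : ℝ}
    (hD : ∀ x, D < |x - c| → f x = 0) (k : ℕ) : ∀ x, D < |x - c| → iteratedDeriv k f x = 0 := by
  induction k with
  | zero => simpa using hD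
  | succ k ih =>
    intro x hx
    rw [iteratedDeriv_succ]
    have h : ∀ᶠ y in nhds x, iteratedDeriv k f y = 0 := by
      have : IsOpen {y : ℝ | D < |y - c|} :=
        isOpen_lt continuous_const (continuous_abs.comp (continuous_id.sub continuous_const))
      filter_upwards [this.mem_nhds hx] with y hy
      exact ih y hy
    have h2 : iteratedDeriv k f =ᶠ[nhds x] fun _ => 0 := h
    rw [h2.deriv_eq]
    simp

theorem Nice.sub_mul {f : ℝ → ℝ} (hf : Nice f) (c : ℚ) {D : ℝ}
    (hD : ∀ x : ℝ, D < |x - (c : ℝ)| → f x = 0) : Nice (fun x => (x - (c : ℝ)) * f x) where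
  smooth := (contDiff_id.sub contDiff_const).mul hf.smooth
  comp := by
    have h1 : PReal (fun p : ℕ × ℚ => (((p.2 - c : ℚ) : ℚ) : ℝ)) :=
      PReal.ofRat (primrec_rat_sub.comp Primrec.snd (Primrec.const c))
    have h2 : PReal (fun p : ℕ × ℚ => (p.1 : ℝ)) := PReal.ofNat Primrec.fst
    have h3 : PReal (fun p : ℕ × ℚ => iteratedDeriv (p.1 - 1) f p.2) :=
      hf.comp.comp (f := fun p : ℕ × ℚ => (p.1 - 1, p.2))
        (Primrec.pair (Primrec.pred.comp Primrec.fst) Primrec.snd)
    refine ((h1.mul hf.comp).add (h2.mul h3)).of_eq fun p => ?_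
    rw [iteratedDeriv_sub_mul hf.smooth]
    push_cast; rfl
  bdd := by
    obtain ⟨B, hB, hB'⟩ := hf.bdd
    refine ⟨fun k => ⌈|D|⌉₊ * B k + k * B (k - 1), Primrec.nat_add.comp
      (Primrec.nat_mul.comp (Primrec.const _) hB) (Primrec.nat_mul.comp Primrec.id
        (hB.comp Primrec.pred)), fun k x => ?_⟩
    rw [iteratedDeriv_sub_mul hf.smooth]
    push_cast
    refine (abs_add_le _ _).trans (add_le_add ?_ ?_)
    · rw [abs_mul]
      rcases lt_or_ge D |x - c| with h | h
      · rw [iteratedDeriv_eq_zero_of_far hD k x h, abs_zero, mul_zero]; positivity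
      · exact mul_le_mul (h.trans ((le_abs_self D).trans (Nat.le_ceil _))) (hB' k x) (abs_nonneg _)
          (Nat.cast_nonneg _)
    · rw [abs_mul, Nat.abs_cast]
      exact mul_le_mul_of_nonneg_left (hB' _ x) (Nat.cast_nonneg _)

/-! ### Cutoffs -/

/-- Smooth cutoff: `1` on `[p, q]`, `0` off `(p - δ, q + δ)`. -/
noncomputable def cut (p q δ : ℚ) (x : ℝ) : ℝ :=
  S (((1 / δ : ℚ) : ℝ) * x + ((1 - p / δ : ℚ) : ℝ)) - S (((1 / δ : ℚ) : ℝ) * x + ((- q / δ : ℚ) : ℝ))

theorem nice_cut (p q δ : ℚ) : Nice (cut p q δ) :=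
  (nice_S.comp_affine (1 / δ) (1 - p / δ)).sub (nice_S.comp_affine (1 / δ) (-q / δ))

theorem cut_eq_one {p q δ : ℚ} (hδ : 0 < δ) {x : ℝ} (h1 : p ≤ x) (h2 : x ≤ q) : cut p q δ x = 1 := by
  have hd : (0 : ℝ) < δ := by exact_mod_cast hδ
  rw [cut, S_of_one_le, S_of_nonpos]
  · norm_num
  · push_cast
    have : 1 / (δ : ℝ) * x + -q / δ = (x - q) / δ := by ring
    rw [this]
    exact div_nonpos_of_nonpos_of_nonneg (by linarith) hd.le
  · push_cast
    have : 1 / (δ : ℝ) * x + (1 - p / δ) = 1 + (x - p) / δ := by ring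
    rw [this]
    have : 0 ≤ (x - p) / δ := div_nonneg (by linarith) hd.le
    linarith

theorem cut_eq_zero_left {p q δ : ℚ} (hδ : 0 < δ) (hpq : p ≤ q) {x : ℝ} (h1 : x ≤ p - δ) :
    cut p q δ x = 0 := by
  have hd : (0 : ℝ) < δ := by exact_mod_cast hδ
  have hpq' : (p : ℝ) ≤ q := by exact_mod_cast hpq
  rw [cut, S_of_nonpos, S_of_nonpos]
  · norm_num
  · push_cast
    have : 1 / (δ : ℝ) * x + -q / δ = (x - q) / δ := by ring
    rw [this]
    exact div_nonpos_of_nonpos_of_nonneg (by linarith) hd.le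
  · push_cast
    have : 1 / (δ : ℝ) * x + (1 - p / δ) = (x - (p - δ)) / δ := by field_simp; ring
    rw [this]
    exact div_nonpos_of_nonpos_of_nonneg (by linarith) hd.le

theorem cut_eq_zero_right {p q δ : ℚ} (hδ : 0 < δ) (hpq : p ≤ q) {x : ℝ} (h1 : q + δ ≤ x) :
    cut p q δ x = 0 := by
  have hd : (0 : ℝ) < δ := by exact_mod_cast hδ
  have hpq' : (p : ℝ) ≤ q := by exact_mod_cast hpq
  rw [cut, S_of_one_le, S_of_one_le]
  · norm_num
  · push_cast
    have : 1 / (δ : ℝ) * x + -q / δ = 1 + (x - (q + δ)) / δ := by field_simp; ring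
    rw [this]
    have : 0 ≤ (x - (q + δ)) / δ := div_nonneg (by linarith) hd.le
    linarith
  · push_cast
    have : 1 / (δ : ℝ) * x + (1 - p / δ) = 1 + (x - p) / δ := by field_simp; ring
    rw [this]
    have : 0 ≤ (x - p) / δ := div_nonneg (by linarith) hd.le
    linarith

end Crest.Agent.H27
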