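import Crest.Agent.H27.RatComp

/-!
Real-valued functions on a `Primcodable` type with primitive recursive rational approximations,
and closure properties.
-/

set_option autoImplicit false

namespace Crest.Agent.H27

universe u v w

variable {α : Type u} {β : Type v} [Primcodable α] [Primcodable β]

/-- `g` has primitive recursive rational approximations to precision `1/(n+1)`. -/
def PReal (g : α → ℝ) : Prop :=
  ∃ A : α → ℕ → ℚ, Primrec₂ A ∧ ∀ a n, |g a - A a n| ≤ 1 / ((n : ℝ) + 1)

theorem PReal.of_eq {f g : α → ℝ} (hf : PReal f) (h : ∀ a, f a = g a) : PReal g :=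
  (funext h : f = g) ▸ hf

/-- exact rational functions. -/
theorem PReal.ofRat {f : α → ℚ} (hf : Primrec f) : PReal (fun a => (f a : ℝ)) :=
  ⟨fun a _ => f a, hf.comp Primrec.fst, fun a n => by
    rw [sub_self, abs_zero]; positivity⟩

theorem PReal.ratConst (q : ℚ) : PReal (fun _ : α => (q : ℝ)) := PReal.ofRat (Primrec.const q)

theorem PReal.ofNat {f : α → ℕ} (hf : Primrec f) : PReal (fun a => (f a : ℝ)) :=
  (PReal.ofRat (primrec_rat_natCast.comp hf)).of_eq fun a => by simp

theorem PReal.ofInt {f : α → ℤ} (hf : Primrec f) : PReal (fun a => (f a : ℝ)) :=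
  (PReal.ofRat (primrec_rat_intCast.comp hf)).of_eq fun a => by simp

theorem PReal.comp {g : β → ℝ} (hg : PReal g) {f : α → β} (hf : Primrec f) :
    PReal (fun a => g (f a)) := by
  obtain ⟨A, hA, hA'⟩ := hg
  exact ⟨fun a n => A (f a) n, hA.comp (hf.comp Primrec.fst) Primrec.snd, fun a n => hA' _ _⟩

theorem PReal.add {f g : α → ℝ} (hf : PReal f) (hg : PReal g) : PReal (fun a => f a + g a) := by
  obtain ⟨A, hA, hA'⟩ := hf
  obtain ⟨B, hB, hB'⟩ := hg
  refine ⟨fun a n => A a (2 * n + 1) + B a (2 * n + 1), ?_, fun a n => ?_⟩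
  · exact primrec_rat_add.comp
      (hA.comp Primrec.fst (Primrec.nat_double_succ.comp Primrec.snd))
      (hB.comp Primrec.fst (Primrec.nat_double_succ.comp Primrec.snd))
  · have h1 := hA' a (2 * n + 1)
    have h2 := hB' a (2 * n + 1)
    have h3 : (1 : ℝ) / (((2 * n + 1 : ℕ) : ℝ) + 1) + 1 / (((2 * n + 1 : ℕ) : ℝ) + 1) =
        1 / ((n : ℝ) + 1) := by
      push_cast
      have : (n : ℝ) + 1 ≠ 0 := by positivity
      field_simp
      ring
    push_cast at *
    rw [← h3]
    have h4 : f a + g a - ((A a (2 * n + 1) : ℝ) + (B a (2 * n + 1) : ℝ)) =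
      (f a - A a (2 * n + 1)) + (g a - B a (2 * n + 1)) := by ring
    rw [h4]
    exact (abs_add_le _ _).trans (add_le_add h1 h2)

theorem PReal.neg {f : α → ℝ} (hf : PReal f) : PReal (fun a => - f a) := by
  obtain ⟨A, hA, hA'⟩ := hf
  refine ⟨fun a n => - A a n, primrec_rat_neg.comp hA, fun a n => ?_⟩
  have h1 := hA' a n
  push_cast
  rw [show - f a - -(A a n : ℝ) = -(f a - A a n) by ring, abs_neg]
  exact h1

theorem PReal.sub {f g : α → ℝ} (hf : PReal f) (hg : PReal g) : PReal (fun a => f a - g a) :=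
  (hf.add hg.neg).of_eq fun a => by ring

/-- A primitive recursive natural upper bound for the absolute value. -/
theorem PReal.exists_bound {f : α → ℝ} (hf : PReal f) :
    ∃ K : α → ℕ, Primrec K ∧ ∀ a, |f a| ≤ K a := by
  obtain ⟨A, hA, hA'⟩ := hf
  refine ⟨fun a => ⌊|A a 0|⌋₊ + 2, ?_, fun a => ?_⟩
  · exact Primrec.nat_add.comp
      (primrec_rat_natFloor.comp (primrec_rat_abs.comp (hA.comp Primrec.id (Primrec.const 0))))
      (Primrec.const 2)
  · have h1 := hA' a 0
    have h2 : |A a 0| < (⌊|A a 0|⌋₊ : ℚ) + 1 := Nat.lt_floor_add_one _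
    have h3 : |(A a 0 : ℝ)| < (⌊|A a 0|⌋₊ : ℝ) + 1 := by
      have : ((|A a 0| : ℚ) : ℝ) < (((⌊|A a 0|⌋₊ : ℚ) + 1 : ℚ) : ℝ) := by exact_mod_cast h2
      push_cast at this
      exact this
    have h4 : |f a| ≤ |f a - A a 0| + |(A a 0 : ℝ)| := by
      calc |f a| = |(f a - A a 0) + A a 0| := by ring_nf
        _ ≤ _ := abs_add_le _ _
    push_cast
    norm_num at h1
    linarith

theorem PReal.mul {f g : α → ℝ} (hf : PReal f) (hg : PReal g) : PReal (fun a => f a * g a) := by
  obtain ⟨K, hK, hK'⟩ := hf.exists_bound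
  obtain ⟨L, hL, hL'⟩ := hg.exists_bound
  obtain ⟨A, hA, hA'⟩ := hf
  obtain ⟨B, hB, hB'⟩ := hg
  -- precision index
  have hm : Primrec₂ (fun (a : α) (n : ℕ) => (K a + L a + 1) * (n + 1)) :=
    Primrec.nat_mul.comp
      (Primrec.succ.comp (Primrec.nat_add.comp (hK.comp Primrec.fst) (hL.comp Primrec.fst)))
      (Primrec.succ.comp Primrec.snd)
  refine ⟨fun a n => A a ((K a + L a + 1) * (n + 1)) * B a ((K a + L a + 1) * (n + 1)), ?_,
    fun a n => ?_⟩
  · exact primrec_rat_mul.comp (hA.comp Primrec.fst hm) (hB.comp Primrec.fst hm)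
  · set m := (K a + L a + 1) * (n + 1) with hmdef
    have h1 := hA' a m
    have h2 := hB' a m
    have h3 := hK' a
    have h4 := hL' a
    have hmpos : (0 : ℝ) < (m : ℝ) + 1 := by positivity
    have hδ : (1 : ℝ) / ((m : ℝ) + 1) ≤ 1 := by
      rw [div_le_one hmpos]; linarith [(Nat.cast_nonneg m : (0 : ℝ) ≤ (m : ℝ))]
    have h5 : |(A a m : ℝ)| ≤ K a + 1 := by
      calc |(A a m : ℝ)| = |f a - (f a - A a m)| := by ring_nf
        _ ≤ |f a| + |f a - A a m| := abs_sub _ _
        _ ≤ K a + 1 := by linarith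
    have h6 : f a * g a - ((A a m * B a m : ℚ) : ℝ) =
        (f a - A a m) * g a + A a m * (g a - B a m) := by push_cast; ring
    rw [h6]
    calc |(f a - A a m) * g a + A a m * (g a - B a m)|
        ≤ |(f a - A a m) * g a| + |A a m * (g a - B a m)| := abs_add_le _ _
      _ = |f a - A a m| * |g a| + |(A a m : ℝ)| * |g a - B a m| := by rw [abs_mul, abs_mul]
      _ ≤ 1 / ((m : ℝ) + 1) * L a + (K a + 1) * (1 / ((m : ℝ) + 1)) := by
          apply add_le_add
          · exact mul_le_mul h1 h4 (abs_nonneg _) (by positivity)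
          · exact mul_le_mul h5 h2 (abs_nonneg _) (by positivity)
      _ = ((K a : ℝ) + L a + 1) / ((m : ℝ) + 1) := by ring
      _ ≤ 1 / ((n : ℝ) + 1) := by
          rw [div_le_div_iff₀ hmpos (by positivity)]
          rw [hmdef]
          push_cast
          nlinarith

theorem PReal.pow {f : α → ℝ} (hf : PReal f) (k : ℕ) : PReal (fun a => f a ^ k) := by
  induction k with
  | zero => exact (PReal.ratConst 1).of_eq fun a => by simp
  | succ k ih => exact (ih.mul hf).of_eq fun a => by rw [pow_succ]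

theorem PReal.ite {f g : α → ℝ} (hf : PReal f) (hg : PReal g) {c : α → Prop} [DecidablePred c]
    (hc : PrimrecPred c) : PReal (fun a => if c a then f a else g a) := by
  obtain ⟨A, hA, hA'⟩ := hf
  obtain ⟨B, hB, hB'⟩ := hg
  refine ⟨fun a n => if c a then A a n else B a n, ?_, fun a n => ?_⟩
  · exact Primrec.ite (hc.comp Primrec.fst) hA hB
  · by_cases h : c a
    · simp only [if_pos h]; exact hA' a n
    · simp only [if_neg h]; exact hB' a n

theorem primrec_list_sum_rat : Primrec (List.sum : List ℚ → ℚ) := by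
  have h : Primrec (fun l : List ℚ => l.foldr (fun b s => b + s) 0) :=
    Primrec.list_foldr (f := fun l : List ℚ => l) (g := fun _ => (0 : ℚ))
      (h := fun _ (p : ℚ × ℚ) => p.1 + p.2) Primrec.id (Primrec.const 0)
      (primrec_rat_add.comp (Primrec.fst.comp Primrec.snd) (Primrec.snd.comp Primrec.snd))
  refine h.of_eq fun l => ?_
  induction l with
  | nil => rfl
  | cons a l ih => simp only [List.foldr_cons, List.sum_cons, ih]

theorem PReal.listSum {g : α → β → ℝ} (hg : PReal (fun p : α × β => g p.1 p.2))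
    {L : α → List β} (hL : Primrec L) : PReal (fun a => ((L a).map (g a)).sum) := by
  obtain ⟨A, hA, hA'⟩ := hg
  have hm : Primrec₂ (fun (a : α) (n : ℕ) => (n + 1) * (L a).length) :=
    Primrec.nat_mul.comp (Primrec.succ.comp Primrec.snd)
      (Primrec.list_length.comp (hL.comp Primrec.fst))
  refine ⟨fun a n => ((L a).map (fun b => A (a, b) ((n + 1) * (L a).length))).sum, ?_,
    fun a n => ?_⟩
  · refine primrec_list_sum_rat.comp (Primrec.list_map (hL.comp Primrec.fst) ?_)
    exact hA.comp (Primrec.pair (Primrec.fst.comp Primrec.fst) Primrec.snd)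
      (hm.comp (Primrec.fst.comp Primrec.fst) (Primrec.snd.comp Primrec.fst))
  · have key : ∀ (l : List β) (m : ℕ),
        |(l.map (g a)).sum - (((l.map (fun b => A (a, b) m)).sum : ℚ) : ℝ)| ≤
          l.length * (1 / ((m : ℝ) + 1)) := by
      intro l m
      induction l with
      | nil => simp
      | cons b l ih =>
        simp only [List.map_cons, List.sum_cons, List.length_cons]
        rw [Rat.cast_add, Nat.cast_succ]
        have h1 := hA' (a, b) m
        simp only at h1
        calc |g a b + (l.map (g a)).sum -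
              ((A (a, b) m : ℝ) + (((l.map (fun b => A (a, b) m)).sum : ℚ) : ℝ))|
            = |(g a b - A (a, b) m) +
              ((l.map (g a)).sum - (((l.map (fun b => A (a, b) m)).sum : ℚ) : ℝ))| := by
                congr 1; ring
          _ ≤ _ := abs_add_le _ _
          _ ≤ 1 / ((m : ℝ) + 1) + l.length * (1 / ((m : ℝ) + 1)) := add_le_add h1 ih
          _ = _ := by ring
    refine (key (L a) _).trans ?_
    rcases Nat.eq_zero_or_pos (L a).length with h0 | h0
    · rw [h0]
      simp only [Nat.cast_zero, zero_mul]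
      positivity
    · have h1 : (0 : ℝ) < ((L a).length : ℝ) := by exact_mod_cast h0
      rw [mul_one_div, div_le_div_iff₀ (by positivity) (by positivity)]
      push_cast
      nlinarith

theorem PReal.ofUnit {c : ℝ} (hc : PReal (fun _ : Unit => c)) : PReal (fun _ : α => c) :=
  hc.comp (f := fun _ : α => ()) (Primrec.const ())

end Crest.Agent.H27
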