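import Crest.Agent.H27.GoodField

/-!
Fields `g(t) (∂_j ψ e_i - ∂_i ψ e_j)` with a product stream function `ψ`.
-/

set_option autoImplicit false

namespace Crest.Agent.H27

open Crest.AnalysisR.BoxFlow

/-- `g(t) (∂_j ψ e_i - ∂_i ψ e_j)` for `ψ = f₀ f₁ f₂`. -/
noncomputable def pairField (i j : Fin 3) (g : ℝ → ℝ) (f : Fin 3 → ℝ → ℝ) : Field :=
  fun p => tens i g (Function.update f j (deriv (f j))) p +
    tens j (fun t => -(g t)) (Function.update f i (deriv (f i))) p

theorem Nice.neg {f : ℝ → ℝ} (hf : Nice f) : Nice (fun x => - f x) := by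
  have h := hf.rat_mul (-1)
  have e : (fun x => - f x) = (fun x => ((-1 : ℚ) : ℝ) * f x) := by
    funext x; push_cast; ring
  rw [e]; exact h

theorem nice_update {f : Fin 3 → ℝ → ℝ} (hf : ∀ l, Nice (f l)) (j : Fin 3) :
    ∀ l, Nice (Function.update f j (deriv (f j)) l) := by
  intro l
  by_cases h : l = j
  · subst h; rw [Function.update_self]; exact (hf l).deriv
  · rw [Function.update_of_ne h]; exact hf l

theorem deriv_eq_zero_off {f : ℝ → ℝ} {a b : ℝ} (h : ∀ x, x ∉ Set.Icc a b → f x = 0) :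
    ∀ x, x ∉ Set.Icc a b → deriv f x = 0 := by
  intro x hx
  have h1 : f =ᶠ[nhds x] fun _ => 0 := by
    filter_upwards [isClosed_Icc.isOpen_compl.mem_nhds hx] with y hy
    exact h y hy
  rw [h1.deriv_eq]; simp

theorem update_eq_zero_off {f : Fin 3 → ℝ → ℝ} {a b : Fin 3 → ℝ}
    (h : ∀ l x, x ∉ Set.Icc (a l) (b l) → f l x = 0) (j : Fin 3) :
    ∀ l x, x ∉ Set.Icc (a l) (b l) → Function.update f j (deriv (f j)) l x = 0 := by
  intro l x hx
  by_cases hl : l = j
  · subst hl; rw [Function.update_self]; exact deriv_eq_zero_off (h l) x hx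
  · rw [Function.update_of_ne hl]; exact h l x hx

theorem prod3_eq_zero {f : Fin 3 → ℝ → ℝ} {x : Fin 3 → ℝ} (l : Fin 3) (h : f l (x l) = 0) :
    prod3 f x = 0 := by
  unfold prod3
  fin_cases l
  · simp only [Fin.zero_eta] at h; rw [h]; ring
  · simp only [Fin.mk_one] at h; rw [h]; ring
  · simp only [Fin.reduceFinMk] at h; rw [h]; ring

theorem pairField_eq_zero_off {i j : Fin 3} {g : ℝ → ℝ} {f : Fin 3 → ℝ → ℝ} {a b : Fin 3 → ℝ}
    (h : ∀ l x, x ∉ Set.Icc (a l) (b l) → f l x = 0) {p : ℝ × (Fin 3 → ℝ)}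
    (l : Fin 3) (hp : p.2 l ∉ Set.Icc (a l) (b l)) : pairField i j g f p = 0 := by
  unfold pairField tens
  rw [prod3_eq_zero l (update_eq_zero_off h j l _ hp), prod3_eq_zero l (update_eq_zero_off h i l _ hp)]
  simp

theorem Good.pairField {i j : Fin 3} (hij : i ≠ j) {g : ℝ → ℝ} (hg : Nice g)
    (hgt : ∀ t, t ∉ Set.Icc (1 / 4 : ℝ) (3 / 4) → g t = 0)
    {f : Fin 3 → ℝ → ℝ} (hf : ∀ l, Nice (f l)) {a b : Fin 3 → ℝ}
    (h : ∀ l x, x ∉ Set.Icc (a l) (b l) → f l x = 0) :
    Good (pairField i j g f) where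
  nice := (NiceField.tens i hg (nice_update hf j)).add (NiceField.tens j hg.neg (nice_update hf i))
  cpt := by
    apply HasCompactSupport.intro
      (K := Set.Icc (1 / 4 : ℝ) (3 / 4) ×ˢ Set.pi Set.univ (fun l => Set.Icc (a l) (b l)))
    · exact isCompact_Icc.prod (isCompact_univ_pi fun l => isCompact_Icc)
    · intro p hp
      rw [Set.mem_prod, not_and_or] at hp
      rcases hp with hp | hp
      · unfold H27.pairField tens
        simp [hgt _ hp]
      · rw [Set.mem_univ_pi] at hp
        push Not at hp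
        obtain ⟨l, hl⟩ := hp
        exact pairField_eq_zero_off h l hl
  time := fun p hp => by
    unfold H27.pairField tens
    simp [hgt _ hp]
  div := fun p => by
    have hs : ∀ k : Fin 3, ∀ l, ContDiff ℝ (⊤ : ℕ∞) (Function.update f k (deriv (f k)) l) :=
      fun k l => (nice_update hf k l).smooth
    have h1 : DifferentiableAt ℝ (tens i g (Function.update f j (deriv (f j)))) p :=
      ((tens_smooth i hg.smooth (hs j)).differentiable (by simp)).differentiableAt
    have h2 : DifferentiableAt ℝ (tens j (fun t => -(g t)) (Function.update f i (deriv (f i)))) p :=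
      ((tens_smooth j hg.neg.smooth (hs i)).differentiable (by simp)).differentiableAt
    have h3 : fderiv ℝ (H27.pairField i j g f) p =
      fderiv ℝ (tens i g (Function.update f j (deriv (f j)))) p +
      fderiv ℝ (tens j (fun t => -(g t)) (Function.update f i (deriv (f i)))) p := fderiv_add h1 h2
    unfold spaceDiv
    rw [h3]
    have h4 : ∀ l : Fin 3, (fderiv ℝ (tens i g (Function.update f j (deriv (f j)))) p +
        fderiv ℝ (tens j (fun t => -(g t)) (Function.update f i (deriv (f i)))) p)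
          (0, Pi.single l 1) l =
        fderiv ℝ (tens i g (Function.update f j (deriv (f j)))) p (0, Pi.single l 1) l +
        fderiv ℝ (tens j (fun t => -(g t)) (Function.update f i (deriv (f i)))) p
          (0, Pi.single l 1) l := fun _ => rfl
    rw [Finset.sum_congr rfl fun l _ => h4 l, Finset.sum_add_distrib]
    simp only [fderiv_tens_space i hg.smooth (hs j), fderiv_tens_space j hg.neg.smooth (hs i)]
    rw [Finset.sum_eq_single i, Finset.sum_eq_single j]
    · rw [Function.update_of_ne hij, Function.update_of_ne hij.symm]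
      rw [Function.update_comm hij.symm]
      simp [tens]
    · intro b _ hb; simp [tens, Pi.single_eq_of_ne hb]
    · intro hb; exact absurd (Finset.mem_univ _) hb
    · intro b _ hb; simp [tens, Pi.single_eq_of_ne hb]
    · intro hb; exact absurd (Finset.mem_univ _) hb

/-! ### the time profile -/

/-- time profile `σ(t)`, `0` before `1/4`, `1` after `3/4`. -/
noncomputable def sig (t : ℝ) : ℝ := S (((2 : ℚ) : ℝ) * t + ((-1 / 2 : ℚ) : ℝ))

theorem nice_sig : Nice sig := nice_S.comp_affine 2 (-1 / 2)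

theorem sig_of_le {t : ℝ} (ht : t ≤ 1 / 4) : sig t = 0 := by
  unfold sig; apply S_of_nonpos; push_cast; linarith

theorem sig_of_ge {t : ℝ} (ht : 3 / 4 ≤ t) : sig t = 1 := by
  unfold sig; apply S_of_one_le; push_cast; linarith

theorem sig_nonneg (t : ℝ) : 0 ≤ sig t := S_nonneg _

theorem sig_le_one (t : ℝ) : sig t ≤ 1 := S_le_one _

theorem hasDerivAt_sig (t : ℝ) : HasDerivAt sig (deriv sig t) t :=
  ((nice_sig.smooth.differentiable (by simp)) t).hasDerivAt

theorem deriv_sig_off : ∀ t, t ∉ Set.Icc (1 / 4 : ℝ) (3 / 4) → deriv sig t = 0 := by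
  intro t ht
  rw [Set.mem_Icc, not_and_or, not_le, not_le] at ht
  rcases ht with ht | ht
  · have h1 : sig =ᶠ[nhds t] fun _ => 0 := by
      filter_upwards [Iio_mem_nhds ht] with y hy
      exact sig_of_le (le_of_lt hy)
    rw [h1.deriv_eq]; simp
  · have h1 : sig =ᶠ[nhds t] fun _ => 1 := by
      filter_upwards [Ioi_mem_nhds ht] with y hy
      exact sig_of_ge (le_of_lt hy)
    rw [h1.deriv_eq]; simp

end Crest.Agent.H27
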