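import Mathlib

/-!
Primitive recursiveness of arithmetic on `ℤ` and `ℚ` with Mathlib's default
`Primcodable` instances (`Primcodable.ofDenumerable`).
-/

set_option autoImplicit false

namespace Crest.Agent.H27

open Encodable Denumerable

/-! ### gcd -/

theorem primrec_gcd : Primrec₂ Nat.gcd := by
  have h : Primrec₂ (fun a b : ℕ => Nat.findGreatest (fun k => a % k = 0 ∧ b % k = 0) (a + b)) := by
    refine Primrec.nat_findGreatest (f := fun p : ℕ × ℕ => p.1 + p.2)
      (p := fun (p : ℕ × ℕ) (k : ℕ) => p.1 % k = 0 ∧ p.2 % k = 0) ?_ ?_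
    · exact Primrec.nat_add.comp Primrec.fst Primrec.snd
    · refine PrimrecPred.and ?_ ?_
      · exact PrimrecRel.comp Primrec.eq
          (Primrec.nat_mod.comp (Primrec.fst.comp Primrec.fst) Primrec.snd) (Primrec.const 0)
      · exact PrimrecRel.comp Primrec.eq
          (Primrec.nat_mod.comp (Primrec.snd.comp Primrec.fst) Primrec.snd) (Primrec.const 0)
  refine h.of_eq fun a b => ?_
  rcases Nat.eq_zero_or_pos (a + b) with h0 | h0
  · have ha : a = 0 := by omega
    have hb : b = 0 := by omega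
    subst ha; subst hb; simp
  · have hpos : 0 < Nat.gcd a b := by
      rcases Nat.eq_zero_or_pos a with ha | ha
      · exact Nat.gcd_pos_of_pos_right _ (by omega)
      · exact Nat.gcd_pos_of_pos_left _ ha
    apply Nat.findGreatest_eq_iff.2
    refine ⟨?_, ?_, ?_⟩
    · rcases Nat.eq_zero_or_pos a with ha | ha
      · exact (Nat.gcd_le_right a (by omega)).trans (by omega)
      · exact (Nat.gcd_le_left b ha).trans (by omega)
    · intro _
      exact ⟨Nat.mod_eq_zero_of_dvd (Nat.gcd_dvd_left a b),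
        Nat.mod_eq_zero_of_dvd (Nat.gcd_dvd_right a b)⟩
    · intro n hn hn' hd
      have h1 : n ∣ a := Nat.dvd_of_mod_eq_zero hd.1
      have h2 : n ∣ b := Nat.dvd_of_mod_eq_zero hd.2
      exact absurd (Nat.le_of_dvd hpos (Nat.dvd_gcd h1 h2)) (by omega)

/-! ### Integers -/

theorem encode_int_ofNat (n : ℕ) : encode (n : ℤ) = 2 * n := rfl

theorem encode_int_negSucc (n : ℕ) : encode (Int.negSucc n) = 2 * n + 1 := rfl

theorem primrec_int_toNat : Primrec Int.toNat := by
  have h : Primrec (fun z : ℤ => if encode z % 2 = 0 then encode z / 2 else 0) :=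
    Primrec.ite (PrimrecRel.comp Primrec.eq (Primrec.nat_mod.comp Primrec.encode (Primrec.const 2))
      (Primrec.const 0)) (Primrec.nat_div.comp Primrec.encode (Primrec.const 2)) (Primrec.const 0)
  refine h.of_eq fun z => ?_
  rcases z with n | n
  · rw [show encode (Int.ofNat n) = 2 * n from rfl]
    simp
  · rw [show encode (Int.negSucc n) = 2 * n + 1 from rfl]
    rw [if_neg (by omega)]
    rfl

theorem primrec_int_negToNat : Primrec (fun z : ℤ => (-z).toNat) := by
  have h : Primrec (fun z : ℤ => if encode z % 2 = 0 then 0 else (encode z + 1) / 2) :=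
    Primrec.ite (PrimrecRel.comp Primrec.eq (Primrec.nat_mod.comp Primrec.encode (Primrec.const 2))
      (Primrec.const 0)) (Primrec.const 0)
      (Primrec.nat_div.comp (Primrec.succ.comp Primrec.encode) (Primrec.const 2))
  refine h.of_eq fun z => ?_
  rcases z with n | n
  · rw [show encode (Int.ofNat n) = 2 * n from rfl]
    rw [if_pos (by omega)]
    simp
  · rw [show encode (Int.negSucc n) = 2 * n + 1 from rfl]
    rw [if_neg (by omega), Int.neg_negSucc]
    rw [Int.toNat_natCast]
    omega

/-- Builder: difference of two naturals as an integer. -/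
theorem primrec_int_mk : Primrec₂ (fun a b : ℕ => (a : ℤ) - (b : ℤ)) := by
  have h : Primrec₂ (fun a b : ℕ => if b ≤ a then 2 * (a - b) else 2 * (b - a) - 1) := by
    refine Primrec.ite (PrimrecRel.comp Primrec.nat_le Primrec.snd Primrec.fst) ?_ ?_
    · exact Primrec.nat_mul.comp (Primrec.const 2) (Primrec.nat_sub.comp Primrec.fst Primrec.snd)
    · exact Primrec.nat_sub.comp (Primrec.nat_mul.comp (Primrec.const 2)
        (Primrec.nat_sub.comp Primrec.snd Primrec.fst)) (Primrec.const 1)
  refine Primrec₂.encode_iff.1 (h.of_eq fun a b => ?_)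
  split_ifs with hab
  · obtain ⟨c, rfl⟩ := Nat.exists_eq_add_of_le hab
    have : ((b + c : ℕ) : ℤ) - (b : ℤ) = (c : ℤ) := by push_cast; ring
    rw [this, encode_int_ofNat]
    omega
  · obtain ⟨c, rfl⟩ : ∃ c, b = a + (c + 1) := ⟨b - a - 1, by omega⟩
    have : (a : ℤ) - ((a + (c + 1) : ℕ) : ℤ) = Int.negSucc c := by
      rw [Int.negSucc_eq]; push_cast; ring
    rw [this, encode_int_negSucc]
    omega

theorem int_eq_toNat_sub (z : ℤ) : z = (z.toNat : ℤ) - ((-z).toNat : ℤ) := by
  omega

theorem primrec_int_natCast : Primrec (fun n : ℕ => (n : ℤ)) :=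
  (primrec_int_mk.comp Primrec.id (Primrec.const 0)).of_eq fun n => by simp

theorem primrec_int_add : Primrec₂ (fun a b : ℤ => a + b) := by
  have h : Primrec₂ (fun a b : ℤ =>
      ((a.toNat + b.toNat : ℕ) : ℤ) - (((-a).toNat + (-b).toNat : ℕ) : ℤ)) :=
    primrec_int_mk.comp
      (Primrec.nat_add.comp (primrec_int_toNat.comp Primrec.fst) (primrec_int_toNat.comp Primrec.snd))
      (Primrec.nat_add.comp (primrec_int_negToNat.comp Primrec.fst)
        (primrec_int_negToNat.comp Primrec.snd))
  exact h.of_eq fun a b => by omega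

theorem primrec_int_neg : Primrec (fun a : ℤ => -a) := by
  have h : Primrec (fun a : ℤ => (((-a).toNat : ℕ) : ℤ) - ((a.toNat : ℕ) : ℤ)) :=
    primrec_int_mk.comp primrec_int_negToNat primrec_int_toNat
  exact h.of_eq fun a => by omega

theorem primrec_int_sub : Primrec₂ (fun a b : ℤ => a - b) :=
  (primrec_int_add.comp Primrec.fst (primrec_int_neg.comp Primrec.snd)).of_eq fun p => by
    simp [sub_eq_add_neg]

theorem primrec_int_mul : Primrec₂ (fun a b : ℤ => a * b) := by
  have h : Primrec₂ (fun a b : ℤ =>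
      ((a.toNat * b.toNat + (-a).toNat * (-b).toNat : ℕ) : ℤ) -
        ((a.toNat * (-b).toNat + (-a).toNat * b.toNat : ℕ) : ℤ)) :=
    primrec_int_mk.comp
      (Primrec.nat_add.comp
        (Primrec.nat_mul.comp (primrec_int_toNat.comp Primrec.fst)
          (primrec_int_toNat.comp Primrec.snd))
        (Primrec.nat_mul.comp (primrec_int_negToNat.comp Primrec.fst)
          (primrec_int_negToNat.comp Primrec.snd)))
      (Primrec.nat_add.comp
        (Primrec.nat_mul.comp (primrec_int_toNat.comp Primrec.fst)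
          (primrec_int_negToNat.comp Primrec.snd))
        (Primrec.nat_mul.comp (primrec_int_negToNat.comp Primrec.fst)
          (primrec_int_toNat.comp Primrec.snd)))
  refine h.of_eq fun a b => ?_
  push_cast
  have ha := int_eq_toNat_sub a
  have hb := int_eq_toNat_sub b
  conv_rhs => rw [ha, hb]
  ring

theorem primrec_int_natAbs : Primrec Int.natAbs :=
  (Primrec.nat_add.comp primrec_int_toNat primrec_int_negToNat).of_eq fun z => by omega

theorem primrec_int_le : PrimrecRel (fun a b : ℤ => a ≤ b) := by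
  have h : PrimrecRel (fun a b : ℤ =>
      a.toNat + (-b).toNat ≤ b.toNat + (-a).toNat) :=
    PrimrecRel.comp Primrec.nat_le
      (Primrec.nat_add.comp (primrec_int_toNat.comp Primrec.fst)
        (primrec_int_negToNat.comp Primrec.snd))
      (Primrec.nat_add.comp (primrec_int_toNat.comp Primrec.snd)
        (primrec_int_negToNat.comp Primrec.fst))
  exact h.of_eq fun a b => by omega

/-! ### Rationals -/

/-- The raw code of a rational number: numerator code paired with denominator. -/
def rawCode (q : ℚ) : ℕ := @Encodable.encode ℚ Rat.instEncodable q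

theorem rawCode_eq (q : ℚ) : rawCode q = Nat.pair (encode q.num) q.den := rfl

theorem rawCode_injective : Function.Injective rawCode :=
  @Encodable.encode_injective ℚ Rat.instEncodable

/-- Numbers that are raw codes. -/
def IsRaw (m : ℕ) : Prop := 0 < m.unpair.2 ∧ Nat.gcd ((m.unpair.1 + 1) / 2) m.unpair.2 = 1

instance : DecidablePred IsRaw := fun m => by unfold IsRaw; infer_instance

theorem encode_int_half (z : ℤ) : (encode z + 1) / 2 = z.natAbs := by
  rcases z with n | n
  · rw [show encode (Int.ofNat n) = 2 * n from rfl]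
    simp; omega
  · rw [show encode (Int.negSucc n) = 2 * n + 1 from rfl]
    simp; omega

theorem isRaw_iff (m : ℕ) : IsRaw m ↔ m ∈ Set.range rawCode := by
  constructor
  · rintro ⟨h1, h2⟩
    set z : ℤ := ofNat ℤ m.unpair.1 with hz
    have hez : encode z = m.unpair.1 := by rw [hz]; exact encode_ofNat _
    have hc : z.natAbs.Coprime m.unpair.2 := by
      rw [← encode_int_half, hez]; exact h2
    refine ⟨⟨z, m.unpair.2, h1.ne', hc⟩, ?_⟩
    rw [rawCode_eq]
    change Nat.pair (encode z) m.unpair.2 = m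
    rw [hez, Nat.pair_unpair]
  · rintro ⟨q, rfl⟩
    rw [IsRaw, rawCode_eq, Nat.unpair_pair]
    refine ⟨q.pos, ?_⟩
    simp only
    rw [encode_int_half]
    exact q.reduced

theorem primrec_isRaw : PrimrecPred IsRaw := by
  refine PrimrecPred.and ?_ ?_
  · exact PrimrecRel.comp Primrec.nat_lt (Primrec.const 0) (Primrec.snd.comp Primrec.unpair)
  · refine PrimrecRel.comp Primrec.eq (primrec_gcd.comp ?_ (Primrec.snd.comp Primrec.unpair))
      (Primrec.const 1)
    exact Primrec.nat_div.comp (Primrec.succ.comp (Primrec.fst.comp Primrec.unpair))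
      (Primrec.const 2)

/-- Number of raw codes below `m`. -/
def rawCount (m : ℕ) : ℕ := ((List.range m).filter (fun k => decide (IsRaw k))).length

theorem primrec_rawCount : Primrec rawCount :=
  Primrec.list_length.comp ((Primrec.listFilter primrec_isRaw).comp Primrec.list_range)

/-- The code of a rational in the `Primcodable` instance. -/
abbrev ratEnc (q : ℚ) : ℕ := @Encodable.encode ℚ (Primcodable.toEncodable) q

theorem ratEnc_eq (q : ℚ) : ratEnc q = rawCount (rawCode q) := by
  rw [rawCount, ← List.countP_eq_length_filter]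
  change (List.range (rawCode q)).countP _ = _
  apply List.countP_congr
  intro k _
  simp only [decide_eq_true_eq]
  rw [isRaw_iff]
  rfl

theorem rawCount_eq_count (m : ℕ) : rawCount m = Nat.count IsRaw m := by
  induction m with
  | zero => simp [rawCount]
  | succ n ih =>
    rw [Nat.count_succ, ← ih, rawCount, rawCount, List.range_succ, List.filter_append,
      List.length_append]
    congr 1
    by_cases h : IsRaw n <;> simp [h]

theorem isRaw_rawCode (q : ℚ) : IsRaw (rawCode q) := (isRaw_iff _).2 ⟨q, rfl⟩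

theorem rawCode_natCast (k : ℕ) : rawCode (k : ℚ) = Nat.pair (2 * k) 1 := by
  rw [rawCode_eq]
  simp [encode_int_ofNat]

theorem rawCode_le (q : ℚ) : rawCode q ≤ Nat.pair (2 * ratEnc q) 1 := by
  by_contra hlt
  push Not at hlt
  have key : ∀ k : ℕ, k ≤ Nat.count IsRaw (Nat.pair (2 * k) 1) := by
    intro k
    induction k with
    | zero => exact Nat.zero_le _
    | succ n ih =>
      have h1 : Nat.pair (2 * n) 1 < Nat.pair (2 * (n + 1)) 1 := Nat.pair_lt_pair_left _ (by omega)
      have h2 : IsRaw (Nat.pair (2 * n) 1) := by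
        rw [← rawCode_natCast]; exact isRaw_rawCode _
      have h3 := Nat.count_strict_mono h2 h1
      omega
  have h1 := key (ratEnc q)
  have h2 : IsRaw (Nat.pair (2 * ratEnc q) 1) := by
    rw [← rawCode_natCast]; exact isRaw_rawCode _
  have h3 := Nat.count_strict_mono h2 hlt
  rw [← rawCount_eq_count (rawCode q), ← ratEnc_eq] at h3
  omega

theorem primrec_rawCode : Primrec rawCode := by
  have h : Primrec (fun q : ℚ => Nat.findGreatest
      (fun m => IsRaw m ∧ rawCount m = ratEnc q) (Nat.pair (2 * ratEnc q) 1)) := by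
    refine Primrec.nat_findGreatest (f := fun q : ℚ => Nat.pair (2 * ratEnc q) 1)
      (p := fun (q : ℚ) (m : ℕ) => IsRaw m ∧ rawCount m = ratEnc q) ?_ ?_
    · exact Primrec₂.natPair.comp (Primrec.nat_mul.comp (Primrec.const 2) Primrec.encode)
        (Primrec.const 1)
    · exact PrimrecPred.and (primrec_isRaw.comp Primrec.snd)
        (PrimrecRel.comp Primrec.eq (primrec_rawCount.comp Primrec.snd)
          (Primrec.encode.comp Primrec.fst))
  refine h.of_eq fun q => ?_
  apply Nat.findGreatest_eq_iff.2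
  refine ⟨rawCode_le q, fun _ => ⟨isRaw_rawCode q, (ratEnc_eq q).symm⟩, ?_⟩
  intro n hn _ hc
  rw [ratEnc_eq, rawCount_eq_count, rawCount_eq_count] at hc
  have h3 := Nat.count_strict_mono (isRaw_rawCode q) hn
  omega

theorem primrec_rat_num : Primrec (fun q : ℚ => q.num) := by
  have h : Primrec (fun q : ℚ => ofNat ℤ (rawCode q).unpair.1) :=
    (Primrec.ofNat ℤ).comp (Primrec.fst.comp (Primrec.unpair.comp primrec_rawCode))
  refine h.of_eq fun q => ?_
  rw [rawCode_eq, Nat.unpair_pair]
  exact ofNat_encode _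

theorem primrec_rat_den : Primrec (fun q : ℚ => q.den) := by
  have h : Primrec (fun q : ℚ => (rawCode q).unpair.2) :=
    (Primrec.snd.comp (Primrec.unpair.comp primrec_rawCode))
  refine h.of_eq fun q => ?_
  rw [rawCode_eq, Nat.unpair_pair]

/-- `n / (d + 1)` as a rational. -/
theorem primrec_rat_mk : Primrec₂ (fun (n : ℤ) (d : ℕ) => (n : ℚ) / ((d : ℚ) + 1)) := by
  have hg : Primrec (fun p : ℤ × ℕ => Nat.gcd p.1.natAbs (p.2 + 1)) :=
    primrec_gcd.comp (primrec_int_natAbs.comp Primrec.fst) (Primrec.succ.comp Primrec.snd)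
  have hn : Primrec (fun p : ℤ × ℕ =>
      (((p.1.toNat / Nat.gcd p.1.natAbs (p.2 + 1) : ℕ) : ℤ) -
        (((-p.1).toNat / Nat.gcd p.1.natAbs (p.2 + 1) : ℕ) : ℤ))) :=
    primrec_int_mk.comp
      (Primrec.nat_div.comp (primrec_int_toNat.comp Primrec.fst) hg)
      (Primrec.nat_div.comp (primrec_int_negToNat.comp Primrec.fst) hg)
  have hd : Primrec (fun p : ℤ × ℕ => (p.2 + 1) / Nat.gcd p.1.natAbs (p.2 + 1)) :=
    Primrec.nat_div.comp (Primrec.succ.comp Primrec.snd) hg
  have h : Primrec (fun p : ℤ × ℕ => rawCount (Nat.pair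
      (encode (((p.1.toNat / Nat.gcd p.1.natAbs (p.2 + 1) : ℕ) : ℤ) -
        (((-p.1).toNat / Nat.gcd p.1.natAbs (p.2 + 1) : ℕ) : ℤ)))
      ((p.2 + 1) / Nat.gcd p.1.natAbs (p.2 + 1)))) :=
    primrec_rawCount.comp (Primrec₂.natPair.comp (Primrec.encode.comp hn) hd)
  refine Primrec.encode_iff.1 (h.of_eq fun p => ?_)
  obtain ⟨n, d⟩ := p
  symm
  change ratEnc _ = _
  rw [ratEnc_eq, rawCode_eq]
  have hq : ((n : ℚ) / ((d : ℚ) + 1)) = mkRat n (d + 1) := by
    rw [Rat.mkRat_eq_div]; push_cast; ring
  have hnum : ((n : ℚ) / ((d : ℚ) + 1)).num = n / (Nat.gcd n.natAbs (d + 1) : ℕ) := by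
    rw [hq, Rat.num_mkRat]
    simp [Nat.gcd_comm]
  have hden : ((n : ℚ) / ((d : ℚ) + 1)).den = (d + 1) / (Nat.gcd n.natAbs (d + 1)) := by
    rw [hq, Rat.den_mkRat]
    simp [Nat.gcd_comm]
  simp only
  rw [hnum, hden]
  congr 3
  rcases le_total 0 n with h0 | h0
  · obtain ⟨m, rfl⟩ := Int.eq_ofNat_of_zero_le h0
    simp
  · obtain ⟨m, hm⟩ := Int.eq_ofNat_of_zero_le (show 0 ≤ -n by omega)
    have : n = -(m : ℤ) := by omega
    subst this
    simp only [Int.natAbs_neg, Int.natAbs_natCast, neg_neg, Int.toNat_natCast, Int.toNat_neg_natCast,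
      Nat.zero_div, Nat.cast_zero, zero_sub]
    rw [Int.neg_ediv_of_dvd (Int.natCast_dvd_natCast.2 (Nat.gcd_dvd_left m (d + 1)))]
    push_cast
    rfl

theorem primrec_rat_intCast : Primrec (fun n : ℤ => (n : ℚ)) :=
  (primrec_rat_mk.comp Primrec.id (Primrec.const 0)).of_eq fun n => by simp

theorem primrec_rat_natCast : Primrec (fun n : ℕ => (n : ℚ)) :=
  (primrec_rat_intCast.comp primrec_int_natCast).of_eq fun n => by simp

theorem primrec_rat_mk' : Primrec₂ (fun (n : ℤ) (d : ℕ) => (n : ℚ) / (d : ℚ)) := by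
  have h : Primrec₂ (fun (n : ℤ) (d : ℕ) => if d = 0 then (0 : ℚ) else
      (n : ℚ) / (((d - 1 : ℕ) : ℚ) + 1)) :=
    Primrec.ite (PrimrecRel.comp Primrec.eq Primrec.snd (Primrec.const 0)) (Primrec.const 0)
      (primrec_rat_mk.comp Primrec.fst (Primrec.pred.comp Primrec.snd))
  refine h.of_eq fun n d => ?_
  rcases d with _ | d
  · simp
  · simp

theorem primrec_rat_add : Primrec₂ (fun a b : ℚ => a + b) := by
  have h : Primrec₂ (fun a b : ℚ => ((a.num * b.den + b.num * a.den : ℤ) : ℚ) /
      ((a.den * b.den : ℕ) : ℚ)) :=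
    primrec_rat_mk'.comp
      (primrec_int_add.comp
        (primrec_int_mul.comp (primrec_rat_num.comp Primrec.fst)
          (primrec_int_natCast.comp (primrec_rat_den.comp Primrec.snd)))
        (primrec_int_mul.comp (primrec_rat_num.comp Primrec.snd)
          (primrec_int_natCast.comp (primrec_rat_den.comp Primrec.fst))))
      (Primrec.nat_mul.comp (primrec_rat_den.comp Primrec.fst) (primrec_rat_den.comp Primrec.snd))
  refine h.of_eq fun a b => ?_
  have ha : (a.den : ℚ) ≠ 0 := by exact_mod_cast a.den_nz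
  have hb : (b.den : ℚ) ≠ 0 := by exact_mod_cast b.den_nz
  conv_rhs => rw [← Rat.num_div_den a, ← Rat.num_div_den b]
  push_cast
  field_simp

theorem primrec_rat_neg : Primrec (fun a : ℚ => -a) := by
  have h : Primrec (fun a : ℚ => ((-a.num : ℤ) : ℚ) / ((a.den : ℕ) : ℚ)) :=
    primrec_rat_mk'.comp (primrec_int_neg.comp primrec_rat_num) primrec_rat_den
  refine h.of_eq fun a => ?_
  conv_rhs => rw [← Rat.num_div_den a]
  push_cast
  ring

theorem primrec_rat_sub : Primrec₂ (fun a b : ℚ => a - b) :=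
  (primrec_rat_add.comp Primrec.fst (primrec_rat_neg.comp Primrec.snd)).of_eq fun p => by
    simp [sub_eq_add_neg]

theorem primrec_rat_mul : Primrec₂ (fun a b : ℚ => a * b) := by
  have h : Primrec₂ (fun a b : ℚ => ((a.num * b.num : ℤ) : ℚ) /
      ((a.den * b.den : ℕ) : ℚ)) :=
    primrec_rat_mk'.comp
      (primrec_int_mul.comp (primrec_rat_num.comp Primrec.fst) (primrec_rat_num.comp Primrec.snd))
      (Primrec.nat_mul.comp (primrec_rat_den.comp Primrec.fst) (primrec_rat_den.comp Primrec.snd))
  refine h.of_eq fun a b => ?_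
  conv_rhs => rw [← Rat.num_div_den a, ← Rat.num_div_den b]
  push_cast
  field_simp

theorem primrec_rat_le : PrimrecRel (fun a b : ℚ => a ≤ b) := by
  have h : PrimrecRel (fun a b : ℚ => a.num * b.den ≤ b.num * a.den) :=
    PrimrecRel.comp primrec_int_le
      (primrec_int_mul.comp (primrec_rat_num.comp Primrec.fst)
          (primrec_int_natCast.comp (primrec_rat_den.comp Primrec.snd)))
      (primrec_int_mul.comp (primrec_rat_num.comp Primrec.snd)
          (primrec_int_natCast.comp (primrec_rat_den.comp Primrec.fst)))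
  exact h.of_eq fun a b => (Rat.le_iff a b).symm

theorem primrec_rat_lt : PrimrecRel (fun a b : ℚ => a < b) :=
  (PrimrecRel.comp primrec_rat_le Primrec.snd Primrec.fst).not.of_eq fun p => by simp

theorem primrec_rat_inv : Primrec (fun a : ℚ => a⁻¹) := by
  have h : Primrec (fun a : ℚ => if a.num ≤ 0 then ((-(a.den : ℤ) : ℤ) : ℚ) / ((a.num.natAbs : ℕ) : ℚ)
      else (((a.den : ℤ) : ℤ) : ℚ) / ((a.num.natAbs : ℕ) : ℚ)) :=
    Primrec.ite (PrimrecRel.comp primrec_int_le primrec_rat_num (Primrec.const 0))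
      (primrec_rat_mk'.comp (primrec_int_neg.comp (primrec_int_natCast.comp primrec_rat_den))
        (primrec_int_natAbs.comp primrec_rat_num))
      (primrec_rat_mk'.comp (primrec_int_natCast.comp primrec_rat_den)
        (primrec_int_natAbs.comp primrec_rat_num))
  refine h.of_eq fun a => ?_
  conv_rhs => rw [← Rat.num_div_den a, inv_div]
  split_ifs with h0
  · have h1 : ((a.num.natAbs : ℕ) : ℚ) = -(a.num : ℚ) := by
      have : ((a.num.natAbs : ℕ) : ℤ) = -a.num := by omega
      rw [← Int.cast_natCast, this]; push_cast; rfl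
    rw [h1]
    push_cast
    rw [neg_div_neg_eq]
  · have h1 : ((a.num.natAbs : ℕ) : ℚ) = (a.num : ℚ) := by
      have : ((a.num.natAbs : ℕ) : ℤ) = a.num := by omega
      rw [← Int.cast_natCast, this]
    rw [h1]
    push_cast
    rfl

theorem primrec_rat_div : Primrec₂ (fun a b : ℚ => a / b) :=
  (primrec_rat_mul.comp Primrec.fst (primrec_rat_inv.comp Primrec.snd)).of_eq fun p => by
    simp [div_eq_mul_inv]

theorem primrec_rat_pow : Primrec₂ (fun (a : ℚ) (n : ℕ) => a ^ n) := by
  have h : Primrec₂ (fun (a : ℚ) (n : ℕ) => (Nat.rec (1 : ℚ) (fun _ r => r * a) n : ℚ)) :=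
    Primrec.nat_rec (f := fun _ : ℚ => (1 : ℚ)) (g := fun (a : ℚ) (p : ℕ × ℚ) => p.2 * a)
      (Primrec.const 1) (primrec_rat_mul.comp (Primrec.snd.comp Primrec.snd) Primrec.fst)
  refine h.of_eq fun a n => ?_
  induction n with
  | zero => simp
  | succ n ih => simp only [pow_succ]; rw [← ih]

theorem primrec_rat_natFloor : Primrec (fun q : ℚ => ⌊q⌋₊) := by
  have h : Primrec (fun q : ℚ => q.num.toNat / q.den) :=
    Primrec.nat_div.comp (primrec_int_toNat.comp primrec_rat_num) primrec_rat_den
  refine h.of_eq fun q => ?_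
  rcases le_total 0 q with h0 | h0
  · have hn : 0 ≤ q.num := Rat.num_nonneg.2 h0
    obtain ⟨m, hm⟩ := Int.eq_ofNat_of_zero_le hn
    have : q = ((m : ℕ) : ℚ) / (q.den : ℚ) := by
      conv_lhs => rw [← Rat.num_div_den q, hm]
      simp
    rw [hm, Int.toNat_natCast]
    conv_rhs => rw [this]
    rw [Nat.floor_div_eq_div]
  · rw [Nat.floor_of_nonpos h0]
    have hn : q.num ≤ 0 := Rat.num_nonpos.2 h0
    rw [Int.toNat_of_nonpos hn, Nat.zero_div]

theorem primrec_rat_abs : Primrec (fun q : ℚ => |q|) := by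
  have h : Primrec (fun q : ℚ => if 0 ≤ q then q else -q) :=
    Primrec.ite (PrimrecRel.comp primrec_rat_le (Primrec.const 0) Primrec.id) Primrec.id
      primrec_rat_neg
  refine h.of_eq fun q => ?_
  split_ifs with h0
  · rw [abs_of_nonneg h0]
  · rw [abs_of_neg (not_le.1 h0)]

end Crest.Agent.H27
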