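import Crest.Agent.H27.PairField

/-!
The reachability relation between box configurations.
-/

set_option autoImplicit false

namespace Crest.Agent.H27

open Crest.AnalysisR.BoxFlow

/-- The diagonal affine map from box `(a,h)` onto box `(b,k)`. -/
noncomputable def affMap (a h b k : Fin 3 → ℚ) (x : Fin 3 → ℝ) : Fin 3 → ℝ :=
  fun j => (b j : ℝ) + ((k j / h j : ℚ) : ℝ) * (x j - (a j : ℝ))

/-- `U` moves each box `(a i, h i)` onto `(b i, k i)` affinely. -/
def Moves {n : ℕ} (U : Field) (a h b k : Fin n → Fin 3 → ℚ) : Prop :=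
  ∀ i, ∃ O : Set (Fin 3 → ℝ), IsOpen O ∧ box (a i) (h i) ⊆ O ∧ ∀ x ∈ O,
    ∃ γ : ℝ → (Fin 3 → ℝ), (∀ t, HasDerivAt γ (U (t, γ t)) t) ∧ γ 0 = x ∧
      γ 1 = affMap (a i) (h i) (b i) (k i) x

/-- Reachability. -/
def Reach {n : ℕ} (a h b k : Fin n → Fin 3 → ℚ) : Prop := ∃ U : Field, Good U ∧ Moves U a h b k

theorem Reach.refl {n : ℕ} (a h : Fin n → Fin 3 → ℚ) (hh : ∀ i j, 0 < h i j) : Reach a h a h := by
  refine ⟨fun _ => 0, Good.zero, fun i => ⟨Set.univ, isOpen_univ, Set.subset_univ _, fun x _ =>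
    ⟨fun _ => x, fun t => hasDerivAt_const t x, rfl, ?_⟩⟩⟩
  funext j
  unfold affMap
  rw [div_self (hh i j).ne']
  push_cast
  ring

theorem Good.time_le {U : Field} (hU : Good U) {t : ℝ} (ht : t ≤ 1 / 4) (x : Fin 3 → ℝ) :
    U (t, x) = 0 := by
  have hcont : Continuous fun t : ℝ => U (t, x) :=
    hU.nice.smooth.continuous.comp (Continuous.prodMk_left x)
  have hcl : IsClosed {t : ℝ | U (t, x) = 0} := isClosed_eq hcont continuous_const
  have hsub : Set.Iio (1 / 4 : ℝ) ⊆ {t : ℝ | U (t, x) = 0} := by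
    intro s hs
    exact hU.time (s, x) (fun h => absurd h.1 (not_le.2 hs))
  have h2 := closure_minimal hsub hcl
  rw [closure_Iio] at h2
  exact h2 ht

theorem Good.time_ge {U : Field} (hU : Good U) {t : ℝ} (ht : 3 / 4 ≤ t) (x : Fin 3 → ℝ) :
    U (t, x) = 0 := by
  have hcont : Continuous fun t : ℝ => U (t, x) :=
    hU.nice.smooth.continuous.comp (Continuous.prodMk_left x)
  have hcl : IsClosed {t : ℝ | U (t, x) = 0} := isClosed_eq hcont continuous_const
  have hsub : Set.Ioi (3 / 4 : ℝ) ⊆ {t : ℝ | U (t, x) = 0} := by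
    intro s hs
    exact hU.time (s, x) (fun h => absurd h.2 (not_le.2 hs))
  have h2 := closure_minimal hsub hcl
  rw [closure_Ioi] at h2
  exact h2 ht

theorem curve_const {γ : ℝ → (Fin 3 → ℝ)} {a b : ℝ} (hab : a ≤ b)
    (h : ∀ t ∈ Set.Icc a b, HasDerivAt γ 0 t) : γ b = γ a := by
  have h1 : ∀ x ∈ Set.Icc a b, γ x = γ a := by
    apply constant_of_has_deriv_right_zero
    · intro t ht
      exact (h t ht).continuousAt.continuousWithinAt
    · intro t ht
      exact (h t ⟨ht.1, ht.2.le⟩).hasDerivWithinAt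
  exact h1 b ⟨hab, le_refl _⟩

theorem curve_before {U : Field} (hU : Good U) {γ : ℝ → (Fin 3 → ℝ)}
    (hγ : ∀ t, HasDerivAt γ (U (t, γ t)) t) {t : ℝ} (ht : t ≤ 1 / 4) : γ t = γ 0 := by
  rcases le_total t 0 with h0 | h0
  · symm
    apply curve_const h0
    intro s hs
    have := hγ s
    rwa [hU.time_le (by linarith [hs.2])] at this
  · apply curve_const h0
    intro s hs
    have := hγ s
    rwa [hU.time_le (by linarith [hs.2])] at this

theorem curve_after {U : Field} (hU : Good U) {γ : ℝ → (Fin 3 → ℝ)}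
    (hγ : ∀ t, HasDerivAt γ (U (t, γ t)) t) {t : ℝ} (ht : 3 / 4 ≤ t) : γ t = γ 1 := by
  rcases le_total t 1 with h0 | h0
  · symm
    apply curve_const h0
    intro s hs
    have := hγ s
    rwa [hU.time_ge (by linarith [hs.1])] at this
  · apply curve_const h0
    intro s hs
    have := hγ s
    rwa [hU.time_ge (by linarith [hs.1])] at this

theorem affMap_comp (a h b k c l : Fin 3 → ℚ) (hk : ∀ j, k j ≠ 0)
    (x : Fin 3 → ℝ) : affMap b k c l (affMap a h b k x) = affMap a h c l x := by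
  funext j
  unfold affMap
  have h2 : (k j : ℝ) ≠ 0 := by exact_mod_cast hk j
  push_cast
  field_simp
  ring

theorem continuous_affMap (a h b k : Fin 3 → ℚ) : Continuous (affMap a h b k) := by
  unfold affMap
  fun_prop

theorem affMap_mem_box {a h b k : Fin 3 → ℚ} (hh : ∀ j, 0 < h j) (hk : ∀ j, 0 < k j)
    {x : Fin 3 → ℝ} (hx : x ∈ box a h) : affMap a h b k x ∈ box b k := by
  intro j
  have h1 := hx j
  have h3 : (0 : ℝ) < h j := by exact_mod_cast hh j
  have h4 : (0 : ℝ) < k j := by exact_mod_cast hk j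
  unfold affMap
  rw [add_sub_cancel_left, abs_mul]
  push_cast
  rw [abs_of_pos (div_pos h4 h3)]
  calc (k j : ℝ) / h j * |x j - a j| ≤ (k j : ℝ) / h j * h j :=
        mul_le_mul_of_nonneg_left h1 (div_pos h4 h3).le
    _ = k j := by field_simp

theorem Reach.trans {n : ℕ} {a h b k c l : Fin n → Fin 3 → ℚ} (h1 : Reach a h b k)
    (h2 : Reach b k c l) (hh : ∀ i j, 0 < h i j) (hk : ∀ i j, 0 < k i j) : Reach a h c l := by
  obtain ⟨U, hU, hUm⟩ := h1
  obtain ⟨V, hV, hVm⟩ := h2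
  have hU' : Good (rescale 2 (-1 / 4) U) := by
    apply hU.rescale
    intro t ht hm
    apply ht
    push_cast at hm
    exact ⟨by linarith [hm.1], by linarith [hm.2]⟩
  have hV' : Good (rescale 2 (-3 / 4) V) := by
    apply hV.rescale
    intro t ht hm
    apply ht
    push_cast at hm
    exact ⟨by linarith [hm.1], by linarith [hm.2]⟩
  refine ⟨_, hU'.add hV', fun i => ?_⟩
  obtain ⟨O₁, hO₁, hb₁, hm₁⟩ := hUm i
  obtain ⟨O₂, hO₂, hb₂, hm₂⟩ := hVm i
  refine ⟨O₁ ∩ (affMap (a i) (h i) (b i) (k i)) ⁻¹' O₂,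
    hO₁.inter (hO₂.preimage (continuous_affMap _ _ _ _)), ?_, ?_⟩
  · intro x hx
    exact ⟨hb₁ hx, hb₂ (affMap_mem_box (hh i) (hk i) hx)⟩
  · rintro x ⟨hx1, hx2⟩
    obtain ⟨γ₁, hγ₁, h10, h11⟩ := hm₁ x hx1
    obtain ⟨γ₂, hγ₂, h20, h21⟩ := hm₂ _ hx2
    set y := affMap (a i) (h i) (b i) (k i) x with hy
    have early : ∀ t : ℝ, t ≤ 1 / 2 → γ₂ (2 * t - 3 / 4) = y := fun t ht => by
      rw [curve_before hV hγ₂ (by linarith), h20]
    have late : ∀ t : ℝ, 1 / 2 ≤ t → γ₁ (2 * t - 1 / 4) = y := fun t ht => by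
      rw [curve_after hU hγ₁ (by linarith), h11]
    refine ⟨fun t => γ₁ (2 * t - 1 / 4) + γ₂ (2 * t - 3 / 4) - y, ?_, ?_, ?_⟩
    · intro t
      have e1 : HasDerivAt (fun t : ℝ => 2 * t - 1 / 4) 2 t := by
        simpa using ((hasDerivAt_id t).const_mul (2 : ℝ)).sub_const (1 / 4)
      have e2 : HasDerivAt (fun t : ℝ => 2 * t - 3 / 4) 2 t := by
        simpa using ((hasDerivAt_id t).const_mul (2 : ℝ)).sub_const (3 / 4)
      have d1 := HasDerivAt.scomp t (hγ₁ (2 * t - 1 / 4)) e1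
      have d2 := HasDerivAt.scomp t (hγ₂ (2 * t - 3 / 4)) e2
      refine ((d1.add d2).sub_const y).congr_deriv ?_
      unfold rescale
      have c1 : (((2 : ℚ) : ℝ)) * t + ((-1 / 4 : ℚ) : ℝ) = 2 * t - 1 / 4 := by push_cast; ring
      have c2 : (((2 : ℚ) : ℝ)) * t + ((-3 / 4 : ℚ) : ℝ) = 2 * t - 3 / 4 := by push_cast; ring
      simp only
      rw [c1, c2]
      rcases le_total t (1 / 2) with ht | ht
      · rw [early t ht, hV.time_le (by linarith), hV.time_le (by linarith)]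
        simp
      · rw [late t ht, hU.time_ge (by linarith), hU.time_ge (by linarith)]
        simp
    · simp only
      rw [early 0 (by norm_num), curve_before hU hγ₁ (by norm_num), h10]
      simp
    · simp only
      rw [late 1 (by norm_num), curve_after hV hγ₂ (by norm_num), h21]
      rw [hy, affMap_comp _ _ _ _ _ _ (fun j => (hk i j).ne')]
      simp

/-- General elementary move. -/
theorem elem_reach {n : ℕ} {a h b k : Fin n → Fin 3 → ℚ} {i j : Fin 3} (hij : i ≠ j)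
    {f : Fin n → Fin 3 → ℝ → ℝ} (hf : ∀ m l, Nice (f m l)) {lo hi : Fin n → Fin 3 → ℝ}
    (hsupp : ∀ m l x, x ∉ Set.Icc (lo m l) (hi m l) → f m l x = 0)
    (hdisj : ∀ m m', m ≠ m' → ∃ l, hi m l < lo m' l ∨ hi m' l < lo m l)
    {ρ : Fin n → ℝ} (hρ : ∀ m, PReal (fun _ : Unit => ρ m))
    {O : Fin n → Set (Fin 3 → ℝ)} (hO : ∀ m, IsOpen (O m)) (hbox : ∀ m, box (a m) (h m) ⊆ O m)
    {c : Fin n → (Fin 3 → ℝ) → ℝ → (Fin 3 → ℝ)}
    (hc0 : ∀ m, ∀ x ∈ O m, c m x 0 = x)
    (hc1 : ∀ m, ∀ x ∈ O m, c m x 1 = affMap (a m) (h m) (b m) (k m) x)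
    (hcr : ∀ m, ∀ x ∈ O m, ∀ s ∈ Set.Icc (0 : ℝ) 1, ∀ l, c m x s l ∈ Set.Icc (lo m l) (hi m l))
    (hcd : ∀ m, ∀ x ∈ O m, ∀ s ∈ Set.Icc (0 : ℝ) 1, HasDerivAt (c m x)
      (ρ m • (prod3 (Function.update (f m) j (deriv (f m j))) (c m x s) •
          (Pi.single i (1 : ℝ) : Fin 3 → ℝ) -
        prod3 (Function.update (f m) i (deriv (f m i))) (c m x s) •
          (Pi.single j (1 : ℝ) : Fin 3 → ℝ))) s) :
    Reach a h b k := by
  classical
  have hgood : ∀ m, Good (pairField i j (fun t => ρ m * deriv sig t) (f m)) := fun m =>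
    Good.pairField hij ((nice_sig.deriv).const_mul (hρ m))
      (fun t ht => by rw [deriv_sig_off t ht, mul_zero]) (hf m) (hsupp m)
  refine ⟨fun p => ∑ m ∈ Finset.univ, pairField i j (fun t => ρ m * deriv sig t) (f m) p,
    Good.sum Finset.univ (fun m _ => hgood m), fun m => ⟨O m, hO m, hbox m, fun x hx => ?_⟩⟩
  refine ⟨fun t => c m x (sig t), fun t => ?_, ?_, ?_⟩
  · have hs : sig t ∈ Set.Icc (0 : ℝ) 1 := ⟨sig_nonneg t, sig_le_one t⟩
    have d1 := HasDerivAt.scomp t (hcd m x hx (sig t) hs) (hasDerivAt_sig t)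
    refine d1.congr_deriv ?_
    beta_reduce
    rw [Finset.sum_eq_single m]
    · unfold pairField tens
      simp only
      rw [smul_smul, smul_sub, smul_smul, smul_smul, sub_eq_add_neg, ← neg_smul]
      congr 2 <;> ring
    · intro m' _ hm'
      obtain ⟨l, hl⟩ := hdisj m' m hm'
      have hr := hcr m x hx (sig t) hs l
      apply pairField_eq_zero_off (hsupp m') l
      intro hmem
      rcases hl with hl | hl
      · linarith [hr.1, hmem.2]
      · linarith [hr.2, hmem.1]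
    · intro hm; exact absurd (Finset.mem_univ _) hm
  · simp only
    rw [sig_of_le (by norm_num), hc0 m x hx]
  · simp only
    rw [sig_of_ge (by norm_num), hc1 m x hx]

end Crest.Agent.H27
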