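import Crest.Agent.H27.Elem

/-!
The route between two box configurations.
-/

set_option autoImplicit false

namespace Crest.Agent.H27

open Crest.AnalysisR.BoxFlow Filter

section

variable {n : ℕ}

/-- translation inside private regions. -/
theorem translate_reach {a h b P Q : Fin n → Fin 3 → ℚ} (H : Priv a h b h P Q)
    (hh : ∀ m l, 0 < h m l) : Reach a h b h := by
  set a1 : Fin n → Fin 3 → ℚ := fun m l => if l = 0 then b m l else a m l with ha1
  set a2 : Fin n → Fin 3 → ℚ := fun m l => if l = 2 then a m l else b m l with ha2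
  have H1 : Priv a h a1 h P Q := by
    refine ⟨H.Pa, ?_, H.Qa, ?_, H.disj⟩
    · intro m l; simp only [ha1]; split_ifs
      · exact H.Pb m l
      · exact H.Pa m l
    · intro m l; simp only [ha1]; split_ifs
      · exact H.Qb m l
      · exact H.Qa m l
  have H2 : Priv a1 h a2 h P Q := by
    refine ⟨H1.Pb, ?_, H1.Qb, ?_, H.disj⟩
    · intro m l; simp only [ha2]; split_ifs
      · exact H.Pa m l
      · exact H.Pb m l
    · intro m l; simp only [ha2]; split_ifs
      · exact H.Qa m l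
      · exact H.Qb m l
  have H3 : Priv a2 h b h P Q := ⟨H2.Pb, H.Pb, H2.Qb, H.Qb, H.disj⟩
  have r1 : Reach a h a1 h := shift_reach 0 H1 hh (fun m l hl => by simp [ha1, hl])
  have r2 : Reach a1 h a2 h := shift_reach 1 H2 hh (fun m l hl => by
    simp only [ha1, ha2]
    fin_cases l
    · simp
    · exact absurd rfl hl
    · simp)
  have r3 : Reach a2 h b h := shift_reach 2 H3 hh (fun m l hl => by simp [ha2, hl])
  exact (r1.trans r2 hh hh).trans r3 hh hh

/-- change of shape, far from other boxes. -/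
theorem reshape_reach {a h k : Fin n → Fin 3 → ℚ} {R : ℚ} (hh : ∀ m l, 0 < h m l)
    (hk : ∀ m l, 0 < k m l) (hhR : ∀ m l, h m l < R) (hkR : ∀ m l, k m l < R)
    (hmid : ∀ m, h m 0 * h m 1 / k m 0 < R)
    (hvol : ∀ m, k m 0 * k m 1 * k m 2 = h m 0 * h m 1 * h m 2)
    (hsep : ∀ m m', m ≠ m' → ∃ l, 2 * R < |a m l - a m' l|) : Reach a h a k := by
  set k1 : Fin n → Fin 3 → ℚ := fun m l =>
    if l = 0 then k m 0 else if l = 1 then h m 0 * h m 1 / k m 0 else h m 2 with hk1
  have hk1pos : ∀ m l, 0 < k1 m l := by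
    intro m l; simp only [hk1]; split_ifs
    · exact hk m 0
    · exact div_pos (mul_pos (hh m 0) (hh m 1)) (hk m 0)
    · exact hh m 2
  have hk1R : ∀ m l, k1 m l < R := by
    intro m l; simp only [hk1]; split_ifs
    · exact hkR m 0
    · exact hmid m
    · exact hhR m 2
  have hdisj : ∀ m m' : Fin n, m ≠ m' → ∃ l, a m l + R < a m' l - R ∨ a m' l + R < a m l - R := by
    intro m m' hm
    obtain ⟨l, hl⟩ := hsep m m' hm
    refine ⟨l, ?_⟩
    rcases le_total 0 (a m l - a m' l) with h0 | h0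
    · rw [abs_of_nonneg h0] at hl; right; linarith
    · rw [abs_of_nonpos h0] at hl; left; linarith
  have hP : ∀ u v : Fin n → Fin 3 → ℚ, (∀ m l, u m l < R) → (∀ m l, v m l < R) →
      Priv a u a v (fun m l => a m l - R) (fun m l => a m l + R) := by
    intro u v hu hv
    refine ⟨fun m l => ?_, fun m l => ?_, fun m l => ?_, fun m l => ?_, hdisj⟩
    · linarith [hu m l]
    · linarith [hv m l]
    · linarith [hu m l]
    · linarith [hv m l]
  have r1 : Reach a h a k1 := by
    refine squeeze_reach 0 1 (by decide) (hP h k1 hhR hk1R) hh hk1pos ?_ ?_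
    · intro m
      simp only [hk1]
      have := (hk m 0).ne'
      simp
      field_simp
    · intro m l h0 h1
      fin_cases l
      · exact absurd rfl h0
      · exact absurd rfl h1
      · simp [hk1]
  have r2 : Reach a k1 a k := by
    refine squeeze_reach 1 2 (by decide) (hP k1 k hk1R hkR) hk1pos hk ?_ ?_
    · intro m
      simp only [hk1]
      have h0 := (hk m 0).ne'
      have hv := hvol m
      simp
      field_simp
      linarith
    · intro m l h1 h2
      fin_cases l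
      · simp [hk1]
      · exact absurd rfl h1
      · exact absurd rfl h2
  exact r1.trans r2 hh hk1pos

/-- uniform separation of boxes. -/
def Sep (c h : Fin n → Fin 3 → ℚ) (δ : ℚ) : Prop :=
  ∀ m m', m ≠ m' → ∃ l, h m l + h m' l + δ ≤ |c m l - c m' l|

theorem step_reach {c c' h : Fin n → Fin 3 → ℚ} {δ : ℚ} (hh : ∀ m l, 0 < h m l) (hδ : 0 < δ)
    (hs : Sep c h δ) (hcc : ∀ m l, |c' m l - c m l| < δ / 4) : Reach c h c' h := by
  apply translate_reach (P := fun m l => c m l - h m l - δ / 3)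
    (Q := fun m l => c m l + h m l + δ / 3) _ hh
  refine ⟨fun m l => ?_, fun m l => ?_, fun m l => ?_, fun m l => ?_, fun m m' hm => ?_⟩
  · linarith
  · have := (abs_lt.1 (hcc m l)).1; linarith
  · linarith
  · have := (abs_lt.1 (hcc m l)).2; linarith
  · obtain ⟨l, hl⟩ := hs m m' hm
    refine ⟨l, ?_⟩
    rcases le_total 0 (c m l - c m' l) with h0 | h0
    · rw [abs_of_nonneg h0] at hl; right; linarith
    · rw [abs_of_nonpos h0] at hl; left; linarith

theorem exists_bound (v : Fin n → Fin 3 → ℚ) : ∃ V : ℚ, 0 < V ∧ ∀ m l, |v m l| < V := by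
  have h : ∀ᶠ V : ℚ in atTop, ∀ m l, |v m l| < V := by
    rw [eventually_all]
    intro m
    rw [eventually_all]
    intro l
    exact eventually_gt_atTop _
  obtain ⟨V, hV, hV0⟩ := (h.and (eventually_gt_atTop 0)).exists
  exact ⟨V, hV0, hV⟩

theorem line_reach {c v h : Fin n → Fin 3 → ℚ} {δ : ℚ} (hh : ∀ m l, 0 < h m l) (hδ : 0 < δ)
    (hs : ∀ s : ℚ, 0 ≤ s → s ≤ 1 → Sep (fun m l => c m l + s * v m l) h δ) :
    Reach c h (fun m l => c m l + v m l) h := by
  obtain ⟨V, hV0, hV⟩ := exists_bound v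
  obtain ⟨N, hN⟩ := exists_nat_gt (4 * V / δ)
  have hN0 : (0 : ℚ) < N := lt_trans (by positivity) hN
  have hN' : V / N < δ / 4 := by
    rw [div_lt_iff₀ hδ] at hN
    rw [div_lt_div_iff₀ hN0 (by norm_num)]
    linarith
  have key : ∀ k : ℕ, k ≤ N → Reach c h (fun m l => c m l + ((k : ℚ) / N) * v m l) h := by
    intro k
    induction k with
    | zero =>
      intro _
      have e : (fun m l => c m l + (((0 : ℕ) : ℚ) / N) * v m l) = c := by
        funext m l; simp
      rw [e]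
      exact Reach.refl c h hh
    | succ k ih =>
      intro hk
      have r1 := ih (by omega)
      refine r1.trans ?_ hh hh
      have hkN : (k : ℚ) / N ≤ 1 := by
        rw [div_le_one hN0]; exact_mod_cast (by omega : k ≤ N)
      apply step_reach hh hδ (hs ((k : ℚ) / N) (by positivity) hkN)
      intro m l
      have e : c m l + (((k + 1 : ℕ) : ℚ) / N) * v m l - (c m l + ((k : ℚ) / N) * v m l) =
          v m l / N := by push_cast; ring
      rw [e, abs_div, abs_of_pos hN0]
      calc |v m l| / N ≤ V / N := by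
            apply div_le_div_of_nonneg_right (hV m l).le hN0.le
        _ < δ / 4 := hN'
  have h1 := key N le_rfl
  have e : (fun m l => c m l + ((N : ℚ) / N) * v m l) = fun m l => c m l + v m l := by
    funext m l; rw [div_self hN0.ne', one_mul]
  rwa [e] at h1

theorem expand_reach {a h : Fin n → Fin 3 → ℚ} {δ : ℚ} (hh : ∀ m l, 0 < h m l) (hδ : 0 < δ)
    (hs : Sep a h δ) {Λ : ℚ} (hΛ : 1 ≤ Λ) : Reach a h (fun m l => Λ * a m l) h := by
  have h1 : Reach a h (fun m l => a m l + (Λ - 1) * a m l) h := by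
    apply line_reach (v := fun m l => (Λ - 1) * a m l) hh hδ
    intro s s0 s1 m m' hm
    obtain ⟨l, hl⟩ := hs m m' hm
    refine ⟨l, hl.trans ?_⟩
    have e : a m l + s * ((Λ - 1) * a m l) - (a m' l + s * ((Λ - 1) * a m' l)) =
      (1 + s * (Λ - 1)) * (a m l - a m' l) := by ring
    rw [e, abs_mul]
    have h2 : 1 ≤ 1 + s * (Λ - 1) := by nlinarith
    rw [abs_of_pos (by linarith : 0 < 1 + s * (Λ - 1))]
    exact le_mul_of_one_le_left (abs_nonneg _) h2
  have e : (fun m l => a m l + (Λ - 1) * a m l) = fun m l => Λ * a m l := by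
    funext m l; ring
  rwa [e] at h1

theorem contract_reach {a h : Fin n → Fin 3 → ℚ} {δ : ℚ} (hh : ∀ m l, 0 < h m l) (hδ : 0 < δ)
    (hs : Sep a h δ) {Λ : ℚ} (hΛ : 1 ≤ Λ) : Reach (fun m l => Λ * a m l) h a h := by
  have h1 : Reach (fun m l => Λ * a m l) h (fun m l => Λ * a m l + (1 - Λ) * a m l) h := by
    apply line_reach (v := fun m l => (1 - Λ) * a m l) hh hδ
    intro s s0 s1 m m' hm
    obtain ⟨l, hl⟩ := hs m m' hm
    refine ⟨l, hl.trans ?_⟩
    have e : Λ * a m l + s * ((1 - Λ) * a m l) - (Λ * a m' l + s * ((1 - Λ) * a m' l)) =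
      (1 + (1 - s) * (Λ - 1)) * (a m l - a m' l) := by ring
    rw [e, abs_mul]
    have h2 : 1 ≤ 1 + (1 - s) * (Λ - 1) := by nlinarith
    rw [abs_of_pos (by linarith : 0 < 1 + (1 - s) * (Λ - 1))]
    exact le_mul_of_one_le_left (abs_nonneg _) h2
  have e : (fun m l => Λ * a m l + (1 - Λ) * a m l) = a := by
    funext m l; ring
  rwa [e] at h1

/-- Configurations of points which can be joined by a segment. -/
def Ok (c c' : Fin n → Fin 3 → ℚ) : Prop :=
  ∀ m m', m ≠ m' → ∃ l, 0 < (c m l - c m' l) * (c' m l - c' m' l)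

theorem Ok.symm {c c' : Fin n → Fin 3 → ℚ} (H : Ok c c') : Ok c' c := by
  intro m m' hm
  obtain ⟨l, hl⟩ := H m m' hm
  exact ⟨l, by rw [mul_comm]; exact hl⟩

theorem seg_abs {d d' s μ : ℚ} (hd : 0 < d * d') (h1 : μ ≤ |d|) (h2 : μ ≤ |d'|) (s0 : 0 ≤ s)
    (s1 : s ≤ 1) : μ ≤ |d + s * (d' - d)| := by
  have e : d + s * (d' - d) = (1 - s) * d + s * d' := by ring
  rw [e]
  rcases pos_and_pos_or_neg_and_neg_of_mul_pos hd with ⟨p1, p2⟩ | ⟨p1, p2⟩
  · rw [abs_of_pos p1] at h1
    rw [abs_of_pos p2] at h2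
    refine le_trans ?_ (le_abs_self _)
    nlinarith
  · rw [abs_of_neg p1] at h1
    rw [abs_of_neg p2] at h2
    refine le_trans ?_ (neg_le_abs _)
    nlinarith

theorem seg_reach {c c' k : Fin n → Fin 3 → ℚ} (hk : ∀ m l, 0 < k m l) (H : Ok c c') :
    ∀ᶠ Λ : ℚ in atTop, Reach (fun m l => Λ * c m l) k (fun m l => Λ * c' m l) k := by
  have h1 : ∀ᶠ Λ : ℚ in atTop, ∀ m m' : Fin n, m ≠ m' → ∀ s : ℚ, 0 ≤ s → s ≤ 1 →
      ∃ l, k m l + k m' l + 1 ≤ |(Λ * c m l + s * (Λ * (c' m l - c m l))) -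
        (Λ * c m' l + s * (Λ * (c' m' l - c m' l)))| := by
    rw [eventually_all]
    intro m
    rw [eventually_all]
    intro m'
    by_cases hm : m = m'
    · exact Eventually.of_forall fun Λ h => absurd hm h
    obtain ⟨l, hl⟩ := H m m' hm
    have hd : c m l - c m' l ≠ 0 := left_ne_zero_of_mul hl.ne'
    have hd' : c' m l - c' m' l ≠ 0 := right_ne_zero_of_mul hl.ne'
    set μ := min |c m l - c m' l| |c' m l - c' m' l| with hμ
    have hμ0 : 0 < μ := lt_min (abs_pos.2 hd) (abs_pos.2 hd')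
    filter_upwards [eventually_ge_atTop ((k m l + k m' l + 1) / μ), eventually_ge_atTop 0] with Λ hΛ hΛ0
    intro _ s s0 s1
    refine ⟨l, ?_⟩
    rw [div_le_iff₀ hμ0] at hΛ
    have e : (Λ * c m l + s * (Λ * (c' m l - c m l))) - (Λ * c m' l + s * (Λ * (c' m' l - c m' l))) =
        Λ * ((c m l - c m' l) + s * ((c' m l - c' m' l) - (c m l - c m' l))) := by ring
    rw [e, abs_mul, abs_of_nonneg hΛ0]
    refine hΛ.trans (mul_le_mul_of_nonneg_left ?_ hΛ0)
    exact seg_abs hl (min_le_left _ _) (min_le_right _ _) s0 s1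
  filter_upwards [h1] with Λ hΛ
  have h2 : Reach (fun m l => Λ * c m l) k
      (fun m l => Λ * c m l + Λ * (c' m l - c m l)) k := by
    apply line_reach (v := fun m l => Λ * (c' m l - c m l)) hk one_pos
    intro s s0 s1 m m' hm
    exact hΛ m m' hm s s0 s1
  have e : (fun m l => Λ * c m l + Λ * (c' m l - c m l)) = fun m l => Λ * c' m l := by
    funext m l; ring
  rwa [e] at h2

theorem reshape_eventually {a h k : Fin n → Fin 3 → ℚ} (hh : ∀ m l, 0 < h m l)
    (hk : ∀ m l, 0 < k m l) (hvol : ∀ m, k m 0 * k m 1 * k m 2 = h m 0 * h m 1 * h m 2)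
    (hne : ∀ m m', m ≠ m' → ∃ l, a m l ≠ a m' l) :
    ∀ᶠ Λ : ℚ in atTop, Reach (fun m l => Λ * a m l) h (fun m l => Λ * a m l) k := by
  obtain ⟨R1, _, hR1⟩ := exists_bound h
  obtain ⟨R2, _, hR2⟩ := exists_bound k
  obtain ⟨R3, _, hR3⟩ := exists_bound (fun (m : Fin n) (_ : Fin 3) => h m 0 * h m 1 / k m 0)
  set R := max R1 (max R2 R3) with hR
  have h1 : ∀ᶠ Λ : ℚ in atTop, ∀ m m' : Fin n, m ≠ m' → ∃ l, 2 * R < |Λ * a m l - Λ * a m' l| := by
    rw [eventually_all]
    intro m
    rw [eventually_all]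
    intro m'
    by_cases hm : m = m'
    · exact Eventually.of_forall fun Λ h => absurd hm h
    obtain ⟨l, hl⟩ := hne m m' hm
    have hd : 0 < |a m l - a m' l| := abs_pos.2 (sub_ne_zero.2 hl)
    filter_upwards [eventually_gt_atTop (2 * R / |a m l - a m' l|), eventually_ge_atTop 0]
      with Λ hΛ hΛ0
    intro _
    refine ⟨l, ?_⟩
    rw [div_lt_iff₀ hd] at hΛ
    rw [← mul_sub, abs_mul, abs_of_nonneg hΛ0]
    exact hΛ
  filter_upwards [h1] with Λ hΛ
  refine reshape_reach (R := R) hh hk ?_ ?_ ?_ hvol hΛ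
  · intro m l
    exact lt_of_lt_of_le ((le_abs_self _).trans_lt (hR1 m l)) (le_max_left _ _)
  · intro m l
    exact lt_of_lt_of_le ((le_abs_self _).trans_lt (hR2 m l))
      ((le_max_left _ _).trans (le_max_right _ _))
  · intro m
    exact lt_of_lt_of_le ((le_abs_self _).trans_lt (hR3 m 0))
      ((le_max_right _ _).trans (le_max_right _ _))

/-- Perturb the last coordinate so that the last coordinates are pairwise distinct. -/
theorem exists_perturb {a : Fin n → Fin 3 → ℚ} (hne : ∀ m m', m ≠ m' → ∃ l, a m l ≠ a m' l) :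
    ∃ a1 : Fin n → Fin 3 → ℚ, Ok a a1 ∧ ∀ m m', m ≠ m' → a1 m 2 ≠ a1 m' 2 := by
  have h1 : ∀ᶠ η : ℚ in nhdsWithin 0 (Set.Ioi 0), ∀ m m' : Fin n, a m 2 ≠ a m' 2 →
      0 < (a m 2 - a m' 2) * ((a m 2 + η * (m : ℕ)) - (a m' 2 + η * (m' : ℕ))) := by
    rw [eventually_all]
    intro m
    rw [eventually_all]
    intro m'
    by_cases hm : a m 2 = a m' 2
    · exact Eventually.of_forall fun η h => absurd hm h
    have hc : Continuous fun η : ℚ =>
        (a m 2 - a m' 2) * ((a m 2 + η * (m : ℕ)) - (a m' 2 + η * (m' : ℕ))) := by fun_prop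
    have h0 : 0 < (a m 2 - a m' 2) * ((a m 2 + 0 * (m : ℕ)) - (a m' 2 + 0 * (m' : ℕ))) := by
      rw [zero_mul, zero_mul, add_zero, add_zero]
      exact mul_self_pos.2 (sub_ne_zero.2 hm)
    have h2 := (hc.tendsto 0).eventually (lt_mem_nhds h0)
    filter_upwards [h2.filter_mono nhdsWithin_le_nhds] with η hη
    intro _
    exact hη
  obtain ⟨η, hη, hη0⟩ := (h1.and self_mem_nhdsWithin).exists
  have hη0' : (0 : ℚ) < η := hη0
  refine ⟨fun m l => if l = 2 then a m 2 + η * (m : ℕ) else a m l, ?_, ?_⟩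
  · intro m m' hm
    obtain ⟨l, hl⟩ := hne m m' hm
    refine ⟨l, ?_⟩
    by_cases hl2 : l = 2
    · subst hl2
      simp only [if_true]
      exact hη m m' hl
    · simp only [if_neg hl2]
      exact mul_self_pos.2 (sub_ne_zero.2 hl)
  · intro m m' hm
    simp only [if_true]
    by_cases h2 : a m 2 = a m' 2
    · rw [h2]
      intro h
      have h3 : η * ((m : ℕ) : ℚ) = η * ((m' : ℕ) : ℚ) := by linarith
      have h4 := mul_left_cancel₀ hη0'.ne' h3
      apply hm
      apply Fin.ext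
      exact_mod_cast h4
    · intro h
      have h3 := hη m m' h2
      rw [h, sub_self, mul_zero] at h3
      exact lt_irrefl _ h3

/-- The main reachability theorem. -/
theorem main_reach {a h b k : Fin n → Fin 3 → ℚ} {δ : ℚ} (hδ : 0 < δ) (hh : ∀ m l, 0 < h m l)
    (hk : ∀ m l, 0 < k m l) (hvol : ∀ m, k m 0 * k m 1 * k m 2 = h m 0 * h m 1 * h m 2)
    (hsa : Sep a h δ) (hsb : Sep b k δ) : Reach a h b k := by
  have hne : ∀ (c u : Fin n → Fin 3 → ℚ), (∀ m l, 0 < u m l) → Sep c u δ →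
      ∀ m m', m ≠ m' → ∃ l, c m l ≠ c m' l := by
    intro c u hu hs m m' hm
    obtain ⟨l, hl⟩ := hs m m' hm
    refine ⟨l, fun h => ?_⟩
    rw [h, sub_self, abs_zero] at hl
    linarith [hu m l, hu m' l]
  have hna := hne a h hh hsa
  have hnb := hne b k hk hsb
  obtain ⟨a1, hOa, ha1⟩ := exists_perturb hna
  obtain ⟨b1, hOb, hb1⟩ := exists_perturb hnb
  -- parking configurations
  set park : (Fin n → Fin 3 → ℚ) → Fin n → Fin 3 → ℚ := fun c m l =>
    if l = 2 then c m 2 else if l = 0 then ((m : ℕ) : ℚ) else 0 with hpark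
  have hOp : ∀ c : Fin n → Fin 3 → ℚ, (∀ m m', m ≠ m' → c m 2 ≠ c m' 2) → Ok c (park c) := by
    intro c hc m m' hm
    refine ⟨2, ?_⟩
    simp only [hpark, if_true]
    exact mul_self_pos.2 (sub_ne_zero.2 (hc m m' hm))
  have hOab : Ok (park a1) (park b1) := by
    intro m m' hm
    refine ⟨0, ?_⟩
    simp only [hpark]
    simp only [show (0 : Fin 3) ≠ 2 by decide, if_false, if_true]
    apply mul_self_pos.2
    apply sub_ne_zero.2
    intro h
    apply hm
    apply Fin.ext
    exact_mod_cast h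
  have e1 := reshape_eventually hh hk hvol hna
  have e2 := seg_reach hk hOa
  have e3 := seg_reach hk (hOp a1 ha1)
  have e4 := seg_reach hk hOab
  have e5 := seg_reach hk (hOp b1 hb1).symm
  have e6 := seg_reach hk hOb.symm
  obtain ⟨Λ, ⟨⟨⟨⟨⟨⟨r1, r2⟩, r3⟩, r4⟩, r5⟩, r6⟩, hΛ⟩⟩ :=
    ((((((e1.and e2).and e3).and e4).and e5).and e6).and (eventually_ge_atTop (1 : ℚ))).exists
  have r0 := expand_reach hh hδ hsa hΛ
  have r7 := contract_reach hk hδ hsb hΛ
  exact (((((((r0.trans r1 hh hh).trans r2 hh hk).trans r3 hh hk).trans r4 hh hk).trans r5 hh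
    hk).trans r6 hh hk).trans r7 hh hk)

end

end Crest.Agent.H27
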